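import Vale.Agent.P141.H103.MidK
import Vale.Agent.P141.H588G.ChgW
import Vale.Agent.P141.H958.WeakW

/-!
# P141, line (A), near term: the changes at a middle scale above the scale of the kill

Rows killed on squares of scale `K`, middle scale `K + i`, outer scale at least `K + i`. The
families are weighted Gram matrices `QW` (`PA` and `QK` are instances).
-/

namespace Vale.Agent.P141.H708

open Finset Matrix Vale.Agent.P141.PL Vale.Agent.P141.PL.H103 Vale.Agent.P141.H103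
open Vale.Agent.P141.H588G
open Vale.Agent.P075 (Ix val)

noncomputable section

open scoped Classical

/-! ### One row -/

section row

variable {ι κ : Type*} [Fintype ι] [Fintype κ] [DecidableEq ι] [DecidableEq κ]

omit [DecidableEq ι] [DecidableEq κ] in
/-- the form `tr (Z X M Yᵀ)` -/
theorem form_symm {Z : Matrix ι ι ℝ} {M : Matrix κ κ ℝ} (hZ : Zᵀ = Z) (hM : Mᵀ = M)
    (X Y : Matrix ι κ ℝ) : (Z * (X * M * Yᵀ)).trace = (Z * (Y * M * Xᵀ)).trace := by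
  rw [← trace_transpose, transpose_mul, transpose_mul, transpose_mul, transpose_transpose, hZ, hM,
    trace_mul_comm, Matrix.mul_assoc Y M]

/-- the square of the form -/
theorem form_le {Z : Matrix ι ι ℝ} {M : Matrix κ κ ℝ} {τ w : ℝ} (hM : M.PosSemidef)
    (hτ : (τ • (1 : Matrix ι ι ℝ) - Z).PosSemidef) (hw : (w • (1 : Matrix κ κ ℝ) - M).PosSemidef)
    (τ0 : 0 ≤ τ) (X : Matrix ι κ ℝ) :
    (Z * (X * M * Xᵀ)).trace ≤ τ * w * (X * Xᵀ).trace := by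
  have h1 : (X * M * Xᵀ).PosSemidef := by
    have := hM.mul_mul_conjTranspose_same X
    rwa [conjTranspose_eq_transpose_of_trivial] at this
  have h2 := P075.trace_mul_nonneg hτ h1
  have h3 : (X * (w • (1 : Matrix κ κ ℝ) - M) * Xᵀ).PosSemidef := by
    have := hw.mul_mul_conjTranspose_same X
    rwa [conjTranspose_eq_transpose_of_trivial] at this
  have h4 := h3.trace_nonneg
  rw [Matrix.sub_mul, trace_sub, Matrix.smul_mul, Matrix.one_mul, trace_smul, smul_eq_mul] at h2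
  rw [Matrix.mul_sub, Matrix.sub_mul, trace_sub, Matrix.mul_smul, Matrix.mul_one,
    Matrix.smul_mul, trace_smul, smul_eq_mul] at h4
  have h5 := mul_le_mul_of_nonneg_left (sub_nonneg.1 h4) τ0
  linarith

/-- **The change of one row.** -/
theorem row_chg {Z : Matrix ι ι ℝ} {M : Matrix κ κ ℝ} {τ w θ : ℝ} (hZ : Z.PosSemidef)
    (hM : M.PosSemidef) (hτ : (τ • (1 : Matrix ι ι ℝ) - Z).PosSemidef)
    (hw : (w • (1 : Matrix κ κ ℝ) - M).PosSemidef) (τ0 : 0 ≤ τ) (hθ : 0 < θ)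
    (B B' : Matrix ι κ ℝ) :
    (Z * (B' * M * B'ᵀ - B * M * Bᵀ)).trace ≤
      τ * w * (θ / 2 * ((B' - B) * (B' - B)ᵀ).trace
        + θ⁻¹ / 2 * ((B' + B) * (B' + B)ᵀ).trace) := by
  have sZ := psd_tr hZ
  have sM := psd_tr hM
  set D := B' - B with hD
  set U := B' + B with hU
  have e1 : (Z * (B' * M * B'ᵀ - B * M * Bᵀ)).trace = (Z * (D * M * Uᵀ)).trace := by
    have e2 : (Z * (B' * M * B'ᵀ)).trace - (Z * (B * M * Bᵀ)).trace
        = (Z * (D * M * Uᵀ)).trace := by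
      rw [hD, hU, transpose_add]
      simp only [Matrix.sub_mul, Matrix.mul_add, Matrix.mul_sub, trace_add, trace_sub]
      rw [form_symm sZ sM B' B]
      ring
    rw [← e2, Matrix.mul_sub, trace_sub]
  have h1 : 0 ≤ (Z * ((θ • D - U) * M * (θ • D - U)ᵀ)).trace := by
    refine P075.trace_mul_nonneg hZ ?_
    have := hM.mul_mul_conjTranspose_same (θ • D - U)
    rwa [conjTranspose_eq_transpose_of_trivial] at this
  have e3 : (Z * ((θ • D - U) * M * (θ • D - U)ᵀ)).trace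
      = θ ^ 2 * (Z * (D * M * Dᵀ)).trace - 2 * θ * (Z * (D * M * Uᵀ)).trace
        + (Z * (U * M * Uᵀ)).trace := by
    rw [transpose_sub, transpose_smul]
    simp only [Matrix.sub_mul, Matrix.mul_sub, trace_sub, Matrix.smul_mul, Matrix.mul_smul,
      trace_smul, smul_eq_mul]
    rw [form_symm sZ sM U D]
    ring
  rw [e3] at h1
  have h2 := form_le (Z := Z) hM hτ hw τ0 D
  have h3 := form_le (Z := Z) hM hτ hw τ0 U
  rw [e1]
  have h4 : 2 * θ * (Z * (D * M * Uᵀ)).trace ≤ θ ^ 2 * (τ * w * (D * Dᵀ).trace)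
      + τ * w * (U * Uᵀ).trace := by
    have := mul_le_mul_of_nonneg_left h2 (sq_nonneg θ)
    linarith
  have h5 : (Z * (D * M * Uᵀ)).trace ≤ (2 * θ)⁻¹ * (θ ^ 2 * (τ * w * (D * Dᵀ).trace)
      + τ * w * (U * Uᵀ).trace) := by
    rw [le_inv_mul_iff₀ (by positivity)]
    exact h4
  refine h5.trans (le_of_eq ?_)
  field_simp

end row

/-! ### The rows of a family -/

variable {κ : Type*} [Fintype κ] [DecidableEq κ]

/-- the row `x` on the middle cell -/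
def Rw (b : ℤ → ℤ → κ → ℝ) (l : ℕ) (m x : ℤ) : Matrix (Ix l) κ ℝ :=
  Matrix.of fun j i => b x (2 ^ l * m + val l j) i

omit [DecidableEq κ] in
theorem QW_eq_Rw (a l : ℕ) (b : ℤ → ℤ → κ → ℝ) (M : ℤ → Matrix κ κ ℝ) (n m : ℤ) :
    QW a l b M n m = ((2 : ℝ) ^ a * 2 ^ l)⁻¹ • ∑ x ∈ iv a n,
      Rw b l m x * M x * (Rw b l m x)ᵀ := by
  ext j j'
  rw [QW, Matrix.smul_apply, Matrix.sum_apply, smul_eq_mul]
  congr 1
  refine Finset.sum_congr rfl fun x _ => ?_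
  rw [dotProduct_mulVec]
  simp [Rw, Matrix.mul_apply, vecMul, dotProduct]

omit [DecidableEq κ] in
theorem hs_Rw (b : ℤ → ℤ → κ → ℝ) (l : ℕ) (m x : ℤ) :
    (Rw b l m x * (Rw b l m x)ᵀ).trace = ∑ y ∈ iv l m, b x y ⬝ᵥ b x y := by
  rw [H588.sum_iv]
  unfold Matrix.trace
  refine Finset.sum_congr rfl fun j _ => ?_
  simp [Rw, Matrix.mul_apply, dotProduct]

omit [DecidableEq κ] in
theorem nsq0 (u : κ → ℝ) : 0 ≤ u ⬝ᵥ u := Finset.sum_nonneg fun i _ => mul_self_nonneg _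

omit [Fintype κ] [DecidableEq κ] in
theorem Rw_add (b b' : ℤ → ℤ → κ → ℝ) (l : ℕ) (m x : ℤ) :
    Rw b' l m x + Rw b l m x = Rw (fun x y => b' x y + b x y) l m x := rfl

omit [Fintype κ] [DecidableEq κ] in
theorem Rw_sub (b b' : ℤ → ℤ → κ → ℝ) (l : ℕ) (m x : ℤ) :
    Rw b' l m x - Rw b l m x = Rw (fun x y => b' x y - b x y) l m x := rfl

omit [DecidableEq κ] in
theorem nsq_add_le (u v : κ → ℝ) : (u + v) ⬝ᵥ (u + v) ≤ 2 * (u ⬝ᵥ u) + 2 * (v ⬝ᵥ v) := by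
  simp only [dotProduct, Pi.add_apply, Finset.mul_sum, ← Finset.sum_add_distrib]
  exact Finset.sum_le_sum fun i _ => by nlinarith [sq_nonneg (u i - v i)]

omit [DecidableEq κ] in
theorem nsq_sub_le (u v : κ → ℝ) : (u - v) ⬝ᵥ (u - v) ≤ 2 * (u ⬝ᵥ u) + 2 * (v ⬝ᵥ v) := by
  simp only [dotProduct, Pi.sub_apply, Finset.mul_sum, ← Finset.sum_add_distrib]
  exact Finset.sum_le_sum fun i _ => by nlinarith [sq_nonneg (u i + v i)]

/-- number of affected cells of scale `K` of the row in the middle cell -/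
def nu (K i : ℕ) (q : ℤ → ℤ → Prop) (x m : ℤ) : ℝ :=
  ∑ m' ∈ iv i m, if q (ix K x) m' then (1 : ℝ) else 0

theorem nu_nonneg (K i : ℕ) (q : ℤ → ℤ → Prop) (x m : ℤ) : 0 ≤ nu K i q x m :=
  Finset.sum_nonneg fun _ _ => by split_ifs <;> norm_num

/-- the data of a change at the scale `K` in the root -/
structure Kill (N : ℕ) (R S : ℤ) (K : ℕ) (e : ℝ) (q : ℤ → ℤ → Prop) (b b' : ℤ → ℤ → κ → ℝ) :
    Prop where
  ag : ∀ x ∈ iv N R, ∀ y ∈ iv N S, ¬ q (ix K x) (ix K y) → b' x y = b x y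
  rb : ∀ x ∈ iv N R, ∀ m ∈ iv (N - K) S, ∑ y ∈ iv K m, b x y ⬝ᵥ b x y ≤ e * 2 ^ K
  rb' : ∀ x ∈ iv N R, ∀ m ∈ iv (N - K) S, ∑ y ∈ iv K m, b' x y ⬝ᵥ b' x y ≤ e * 2 ^ K

section

variable {N K i : ℕ} {R S : ℤ} {e : ℝ} {q : ℤ → ℤ → Prop} {b b' : ℤ → ℤ → κ → ℝ}

theorem cell_mem (hl : K + i ≤ N) {m m' : ℤ} (hm : m ∈ iv (N - (K + i)) S) (hm' : m' ∈ iv i m) :
    m' ∈ iv (N - K) S := by
  have h := iv_sub hm hm'
  rwa [show N - (K + i) + i = N - K by omega] at h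

theorem pt_mem (hK : K ≤ N) {m y : ℤ} (hm : m ∈ iv (N - K) S) (hy : y ∈ iv K m) :
    y ∈ iv N S := by
  have h := iv_sub hm hy
  rwa [show N - K + K = N by omega] at h

theorem sum_cells (K i : ℕ) (m : ℤ) (f : ℤ → ℝ) :
    ∑ y ∈ iv (K + i) m, f y = ∑ m' ∈ iv i m, ∑ y ∈ iv K m', f y := by
  rw [sum_iv_iv K i m f, Nat.add_comm]

/-- the energy of the sum of the two rows -/
theorem row_sum (h : Kill N R S K e q b b') (hl : K + i ≤ N) {m x : ℤ} (hx : x ∈ iv N R)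
    (hm : m ∈ iv (N - (K + i)) S) :
    ∑ y ∈ iv (K + i) m, (b' x y + b x y) ⬝ᵥ (b' x y + b x y) ≤ 4 * e * 2 ^ (K + i) := by
  rw [sum_cells K i m fun y => (b' x y + b x y) ⬝ᵥ (b' x y + b x y)]
  have h1 : ∀ m' ∈ iv i m, ∑ y ∈ iv K m', (b' x y + b x y) ⬝ᵥ (b' x y + b x y)
      ≤ 4 * e * 2 ^ K := by
    intro m' hm'
    have hc := cell_mem hl hm hm'
    have h2 := h.rb x hx m' hc
    have h3 := h.rb' x hx m' hc
    calc _ ≤ ∑ y ∈ iv K m', (2 * (b' x y ⬝ᵥ b' x y) + 2 * (b x y ⬝ᵥ b x y)) :=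
          sum_le_sum fun y _ => nsq_add_le _ _
      _ = 2 * ∑ y ∈ iv K m', b' x y ⬝ᵥ b' x y + 2 * ∑ y ∈ iv K m', b x y ⬝ᵥ b x y := by
          rw [sum_add_distrib, mul_sum, mul_sum]
      _ ≤ _ := by linarith
  refine (sum_le_sum h1).trans (le_of_eq ?_)
  rw [sum_const, nsmul_eq_mul, card_iv', pow_add]
  ring

/-- the energy of the change of the row -/
theorem row_diff (h : Kill N R S K e q b b') (hl : K + i ≤ N) {m x : ℤ} (hx : x ∈ iv N R)
    (hm : m ∈ iv (N - (K + i)) S) :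
    ∑ y ∈ iv (K + i) m, (b' x y - b x y) ⬝ᵥ (b' x y - b x y) ≤
      4 * e * 2 ^ K * nu K i q x m := by
  rw [sum_cells K i m fun y => (b' x y - b x y) ⬝ᵥ (b' x y - b x y), nu, mul_sum]
  refine sum_le_sum fun m' hm' => ?_
  have hc := cell_mem hl hm hm'
  split_ifs with hq
  · have h2 := h.rb x hx m' hc
    have h3 := h.rb' x hx m' hc
    calc _ ≤ ∑ y ∈ iv K m', (2 * (b' x y ⬝ᵥ b' x y) + 2 * (b x y ⬝ᵥ b x y)) :=
          sum_le_sum fun y _ => nsq_sub_le _ _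
      _ = 2 * ∑ y ∈ iv K m', b' x y ⬝ᵥ b' x y + 2 * ∑ y ∈ iv K m', b x y ⬝ᵥ b x y := by
          rw [sum_add_distrib, mul_sum, mul_sum]
      _ ≤ _ := by linarith
  · rw [mul_zero]
    refine le_of_eq (sum_eq_zero fun y hy => ?_)
    have hy' : ix K y = m' := mem_iv.1 hy
    rw [h.ag x hx y (pt_mem (by omega) hc hy) (by rwa [hy']), sub_self, dotProduct_zero]

/-- no affected cell, no change -/
theorem Rw_congr (h : Kill N R S K e q b b') (hl : K + i ≤ N) {m x : ℤ} (hx : x ∈ iv N R)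
    (hm : m ∈ iv (N - (K + i)) S) (hq : ∀ m' ∈ iv i m, ¬ q (ix K x) m') :
    Rw b' (K + i) m x = Rw b (K + i) m x := by
  have h0 : ∑ y ∈ iv (K + i) m, (b' x y - b x y) ⬝ᵥ (b' x y - b x y) = 0 := by
    refine le_antisymm ((row_diff h hl hx hm).trans (le_of_eq ?_))
      (Finset.sum_nonneg fun y _ => nsq0 _)
    rw [nu, sum_eq_zero fun m' hm' => by rw [if_neg (hq m' hm')], mul_zero]
  rw [H588.sum_iv] at h0
  have h1 := (Finset.sum_eq_zero_iff_of_nonneg fun j _ => nsq0 _).1 h0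
  ext j c
  have h2 := h1 j (mem_univ _)
  have h3 := (dotProduct_self_eq_zero).1 h2
  have h4 := congrFun h3 c
  simp only [Pi.sub_apply, Pi.zero_apply, sub_eq_zero] at h4
  exact h4

/-- **The change of one row, in numbers.** -/
theorem row_num (h : Kill N R S K e q b b') (hl : K + i ≤ N) (he : 0 ≤ e) {τ w : ℝ}
    (τ0 : 0 ≤ τ) (w0 : 0 ≤ w) {M : Matrix κ κ ℝ} (hM : M.PosSemidef)
    (hw : (w • (1 : Matrix κ κ ℝ) - M).PosSemidef) {m x : ℤ} (hx : x ∈ iv N R)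
    (hm : m ∈ iv (N - (K + i)) S) {Z : Matrix (Ix (K + i)) (Ix (K + i)) ℝ} (hZ : Z.PosSemidef)
    (hτ : (τ • (1 : Matrix _ _ ℝ) - Z).PosSemidef) :
    (Z * (Rw b' (K + i) m x * M * (Rw b' (K + i) m x)ᵀ
      - Rw b (K + i) m x * M * (Rw b (K + i) m x)ᵀ)).trace ≤
      4 * τ * w * e * (√2) ^ i * 2 ^ K * nu K i q x m := by
  by_cases hq : ∀ m' ∈ iv i m, ¬ q (ix K x) m'
  · rw [Rw_congr h hl hx hm hq, sub_self, Matrix.mul_zero, trace_zero]
    have := nu_nonneg K i q x m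
    positivity
  · push Not at hq
    obtain ⟨m₀, hm₀, hq₀⟩ := hq
    have hν : 1 ≤ nu K i q x m := by
      have h1 := Finset.single_le_sum (f := fun m' => if q (ix K x) m' then (1 : ℝ) else 0)
        (fun j _ => by split_ifs <;> norm_num) hm₀
      rwa [if_pos hq₀] at h1
    set θ : ℝ := (√2) ^ i with hθ
    have θ0 : 0 < θ := by positivity
    have θ2 : θ * θ = 2 ^ i := by
      rw [hθ, ← mul_pow, Real.mul_self_sqrt (by norm_num)]
    have h1 := row_chg hZ hM hτ hw τ0 θ0 (Rw b (K + i) m x) (Rw b' (K + i) m x)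
    rw [Rw_add, Rw_sub, hs_Rw, hs_Rw] at h1
    refine h1.trans ?_
    have d1 := row_diff h hl hx hm
    have d2 := row_sum h hl hx hm
    have d3 : θ / 2 * ∑ y ∈ iv (K + i) m, (b' x y - b x y) ⬝ᵥ (b' x y - b x y)
        + θ⁻¹ / 2 * ∑ y ∈ iv (K + i) m, (b' x y + b x y) ⬝ᵥ (b' x y + b x y)
        ≤ 4 * e * θ * 2 ^ K * nu K i q x m := by
      have a1 := mul_le_mul_of_nonneg_left d1 (by positivity : 0 ≤ θ / 2)
      have a2 := mul_le_mul_of_nonneg_left d2 (by positivity : 0 ≤ θ⁻¹ / 2)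
      have a3 : θ⁻¹ / 2 * (4 * e * 2 ^ (K + i)) = 2 * e * θ * 2 ^ K := by
        rw [pow_add, ← θ2]
        field_simp
        ring
      rw [a3] at a2
      have a4 : 2 * e * θ * 2 ^ K ≤ 2 * e * θ * 2 ^ K * nu K i q x m :=
        le_mul_of_one_le_right (by positivity) hν
      linarith
    refine (mul_le_mul_of_nonneg_left d3 (mul_nonneg τ0 w0)).trans (le_of_eq ?_)
    ring

/-- **The change of a family against `Z`.** -/
theorem QW_chg (h : Kill N R S K e q b b') (hl : K + i ≤ N) (he : 0 ≤ e) {τ w : ℝ}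
    (τ0 : 0 ≤ τ) (w0 : 0 ≤ w) {M : ℤ → Matrix κ κ ℝ} (hM : ∀ x, (M x).PosSemidef)
    (hw : ∀ x, (w • (1 : Matrix κ κ ℝ) - M x).PosSemidef) {a : ℕ} (ha : a ≤ N) {n m : ℤ}
    (hn : n ∈ iv (N - a) R) (hm : m ∈ iv (N - (K + i)) S)
    {Z : Matrix (Ix (K + i)) (Ix (K + i)) ℝ} (hZ : Z.PosSemidef)
    (hτ : (τ • (1 : Matrix _ _ ℝ) - Z).PosSemidef) :
    (Z * (QW a (K + i) b' M n m - QW a (K + i) b M n m)).trace ≤
      ((2 : ℝ) ^ a * 2 ^ (K + i))⁻¹ * (4 * τ * w * e * (√2) ^ i * 2 ^ K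
        * ∑ x ∈ iv a n, nu K i q x m) := by
  rw [QW_eq_Rw, QW_eq_Rw, ← smul_sub, ← sum_sub_distrib, Matrix.mul_smul, trace_smul,
    smul_eq_mul, Matrix.mul_sum, trace_sum, Finset.mul_sum (a := 4 * τ * w * e * (√2) ^ i * 2 ^ K)]
  refine mul_le_mul_of_nonneg_left (sum_le_sum fun x hx => ?_) (by positivity)
  exact row_num h hl he τ0 w0 (hM x) (hw x) (pt_mem ha hn hx) hm hZ hτ

/-- number of affected squares of the root -/
def cq (N K : ℕ) (R S : ℤ) (q : ℤ → ℤ → Prop) : ℝ :=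
  ∑ n ∈ iv (N - K) R, ∑ m ∈ iv (N - K) S, if q n m then (1 : ℝ) else 0

theorem sum_nu (hl : K + i ≤ N) {a : ℕ} (ha : a ≤ N) (q : ℤ → ℤ → Prop) :
    ∑ m ∈ iv (N - (K + i)) S, ∑ n ∈ iv (N - a) R, ∑ x ∈ iv a n, nu K i q x m =
      2 ^ K * cq N K R S q := by
  have e1 : ∀ m, ∑ n ∈ iv (N - a) R, ∑ x ∈ iv a n, nu K i q x m
      = ∑ x ∈ iv N R, nu K i q x m := by
    intro m
    rw [sum_iv_iv a (N - a) R (fun x => nu K i q x m), show N - a + a = N by omega]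
  simp only [e1]
  rw [sum_comm]
  have e2 : ∀ x, ∑ m ∈ iv (N - (K + i)) S, nu K i q x m
      = ∑ m' ∈ iv (N - K) S, if q (ix K x) m' then (1 : ℝ) else 0 := by
    intro x
    unfold nu
    rw [sum_iv_iv i (N - (K + i)) S fun m' => if q (ix K x) m' then (1 : ℝ) else 0,
      show N - (K + i) + i = N - K by omega]
  simp only [e2]
  have e3 := sum_iv_iv K (N - K) R fun x =>
    ∑ m' ∈ iv (N - K) S, if q (ix K x) m' then (1 : ℝ) else 0
  rw [show N - K + K = N by omega] at e3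
  rw [← e3, cq, mul_sum]
  refine sum_congr rfl fun n _ => ?_
  have e4 : ∀ x ∈ iv K n, (∑ m' ∈ iv (N - K) S, if q (ix K x) m' then (1 : ℝ) else 0)
      = ∑ m' ∈ iv (N - K) S, if q n m' then (1 : ℝ) else 0 := by
    intro x hx
    rw [mem_iv.1 hx]
  rw [sum_congr rfl e4, sum_const, nsmul_eq_mul, card_iv']

/-- **The change of the own energy**, middle scale `K + i`, kills at scale `K`. -/
theorem EW_kill (h : Kill N R S K e q b b') (hl : K + i ≤ N) (he : 0 ≤ e) {τ w : ℝ}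
    (τ0 : 0 ≤ τ) (w0 : 0 ≤ w) {M : ℤ → ℤ → Matrix κ κ ℝ} (hM : ∀ m x, (M m x).PosSemidef)
    (hw : ∀ m x, (w • (1 : Matrix κ κ ℝ) - M m x).PosSemidef) {a : ℕ} (ha : a ≤ N)
    (cap : ∀ m ∈ iv (N - (K + i)) S, ∀ n ∈ iv (N - a) R,
      (τ • (1 : Matrix _ _ ℝ) - QW a (K + i) b' (M m) n m).PosSemidef) :
    EW N R S (K + i) (fun a n m => QW a (K + i) b' (M m) n m) a ≤
      EW N R S (K + i) (fun a n m => QW a (K + i) b (M m) n m) a
        + 8 * τ * w * e * (√2) ^ i * (4 ^ K * cq N K R S q) := by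
  unfold EW
  have key : ∀ m ∈ iv (N - (K + i)) S, ∀ n ∈ iv (N - a) R,
      (QW a (K + i) b' (M m) n m * QW a (K + i) b' (M m) n m).trace ≤
      (QW a (K + i) b (M m) n m * QW a (K + i) b (M m) n m).trace
        + 2 * (((2 : ℝ) ^ a * 2 ^ (K + i))⁻¹ * (4 * τ * w * e * (√2) ^ i * 2 ^ K
        * ∑ x ∈ iv a n, nu K i q x m)) := by
    intro m hm n hn
    have p1 := QW_psd (a := a) (k := K + i) (b := b') (hM m) n m
    have p2 := QW_psd (a := a) (k := K + i) (b := b) (hM m) n m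
    have h1 := QW_chg h hl he τ0 w0 (hM m) (hw m) ha hn hm p1 (cap m hm n hn)
    have h2 := S2_sub_le (X := QW a (K + i) b' (M m) n m) (Y := QW a (K + i) b (M m) n m)
      (E := QW a (K + i) b' (M m) n m - QW a (K + i) b (M m) n m) p1 (psd_tr p2)
      (by rw [sub_self]; exact PosSemidef.zero)
    unfold S2 at h2
    linarith
  have h3 := mul_le_mul_of_nonneg_left (sum_le_sum fun m hm => sum_le_sum fun n hn =>
    key m hm n hn) (show (0 : ℝ) ≤ 2 ^ a * 2 ^ (K + i) by positivity)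
  refine h3.trans (le_of_eq ?_)
  simp only [sum_add_distrib, ← mul_sum]
  rw [sum_nu hl ha q, show (4 : ℝ) = 2 * 2 by norm_num, mul_pow]
  field_simp
  ring

end

/-! ### The plane functional -/

section plane

variable {κ' : Type*} [Fintype κ'] [DecidableEq κ'] {N K i : ℕ} {R S T : ℤ} {eA eb : ℝ}
  {qA qb : ℤ → ℤ → Prop} {A A' : ℤ → ℤ → κ → ℝ} {b b' : ℤ → ℤ → κ' → ℝ}

/-- **The change of the plane functional**, middle scale `K + i`, kills at scale `K`. -/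
theorem MW_kill (hA : Kill N R S K eA qA A A') (hb : Kill N T S K eb qb b b') (hl : K + i ≤ N)
    (eA0 : 0 ≤ eA) (eb0 : 0 ≤ eb) {τP τQ wA wb : ℝ} (P0 : 0 ≤ τP) (Q0 : 0 ≤ τQ) (wA0 : 0 ≤ wA)
    (wb0 : 0 ≤ wb) {MA : ℤ → ℤ → Matrix κ κ ℝ} {Mb : ℤ → ℤ → Matrix κ' κ' ℝ}
    (pA : ∀ m x, (MA m x).PosSemidef) (pb : ∀ m x, (Mb m x).PosSemidef)
    (hwA : ∀ m x, (wA • (1 : Matrix κ κ ℝ) - MA m x).PosSemidef)
    (hwb : ∀ m x, (wb • (1 : Matrix κ' κ' ℝ) - Mb m x).PosSemidef)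
    (capP : ∀ m ∈ iv (N - (K + i)) S, ∀ n ∈ iv (N - (K + i)) R,
      (τP • (1 : Matrix _ _ ℝ) - QW (K + i) (K + i) A (MA m) n m).PosSemidef)
    (capQ : ∀ m ∈ iv (N - (K + i)) S, ∀ n ∈ iv (N - (K + i)) T,
      (τQ • (1 : Matrix _ _ ℝ) - QW (K + i) (K + i) b' (Mb m) n m).PosSemidef) (c : ℤ) :
    MW N R S T (K + i) c (fun n m => QW (K + i) (K + i) A' (MA m) n m)
        (fun n m => QW (K + i) (K + i) b' (Mb m) n m) ≤
      MW N R S T (K + i) c (fun n m => QW (K + i) (K + i) A (MA m) n m)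
        (fun n m => QW (K + i) (K + i) b (Mb m) n m)
        + 4 * (√2) ^ i * (τQ * wA * eA * (4 ^ K * cq N K R S qA)
          + τP * wb * eb * (4 ^ K * cq N K T S qb)) := by
  have pw : ((2 : ℝ) ^ (K + i) * 2 ^ (K + i))⁻¹ * (4 : ℝ) ^ (K + i) = 1 := by
    rw [show (4 : ℝ) = 2 * 2 by norm_num, mul_pow]
    field_simp
  unfold MW
  -- one node
  have key : ∀ m ∈ iv (N - (K + i)) S, ∀ n ∈ iv (N - (K + i)) R,
      (if c - m - n ∈ iv (N - (K + i)) T then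
        (QW (K + i) (K + i) A' (MA m) n m * QW (K + i) (K + i) b' (Mb m) (c - m - n) m).trace else 0) ≤
      (if c - m - n ∈ iv (N - (K + i)) T then
        (QW (K + i) (K + i) A (MA m) n m * QW (K + i) (K + i) b (Mb m) (c - m - n) m).trace else 0)
      + (((2 : ℝ) ^ (K + i) * 2 ^ (K + i))⁻¹ * (4 * τQ * wA * eA * (√2) ^ i * 2 ^ K
          * ∑ x ∈ iv (K + i) n, nu K i qA x m)
        + (if c - m - n ∈ iv (N - (K + i)) T then ((2 : ℝ) ^ (K + i) * 2 ^ (K + i))⁻¹ * (4 * τP * wb * eb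
          * (√2) ^ i * 2 ^ K * ∑ x ∈ iv (K + i) (c - m - n), nu K i qb x m) else 0)) := by
    intro m hm n hn
    have g0 : 0 ≤ ((2 : ℝ) ^ (K + i) * 2 ^ (K + i))⁻¹ * (4 * τQ * wA * eA * (√2) ^ i * 2 ^ K
          * ∑ x ∈ iv (K + i) n, nu K i qA x m) := by
      have : 0 ≤ ∑ x ∈ iv (K + i) n, nu K i qA x m := Finset.sum_nonneg fun x _ => nu_nonneg _ _ _ _ _
      positivity
    split_ifs with hc
    · have z1 := QW_psd (a := (K + i)) (k := (K + i)) (b := b') (pb m) (c - m - n) m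
      have z2 := QW_psd (a := (K + i)) (k := (K + i)) (b := A) (pA m) n m
      have h1 := QW_chg hA hl eA0 Q0 wA0 (pA m) (hwA m) (by omega : (K + i) ≤ N) hn hm z1
        (capQ m hm _ hc)
      have h2 := QW_chg hb hl eb0 P0 wb0 (pb m) (hwb m) (by omega : (K + i) ≤ N) hc hm z2
        (capP m hm n hn)
      have e1 : (QW (K + i) (K + i) A' (MA m) n m * QW (K + i) (K + i) b' (Mb m) (c - m - n) m).trace
          = (QW (K + i) (K + i) A (MA m) n m * QW (K + i) (K + i) b (Mb m) (c - m - n) m).trace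
            + (QW (K + i) (K + i) b' (Mb m) (c - m - n) m * (QW (K + i) (K + i) A' (MA m) n m
              - QW (K + i) (K + i) A (MA m) n m)).trace
            + (QW (K + i) (K + i) A (MA m) n m * (QW (K + i) (K + i) b' (Mb m) (c - m - n) m
              - QW (K + i) (K + i) b (Mb m) (c - m - n) m)).trace := by
        rw [Matrix.mul_sub, Matrix.mul_sub, trace_sub, trace_sub,
          trace_mul_comm (QW (K + i) (K + i) b' (Mb m) (c - m - n) m) (QW (K + i) (K + i) A' (MA m) n m),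
          trace_mul_comm (QW (K + i) (K + i) b' (Mb m) (c - m - n) m) (QW (K + i) (K + i) A (MA m) n m)]
        ring
      rw [e1]
      linarith
    · linarith
  have h3 := mul_le_mul_of_nonneg_left (sum_le_sum fun m hm => sum_le_sum fun n hn =>
    key m hm n hn) (show (0 : ℝ) ≤ 4 ^ (K + i) by positivity)
  refine h3.trans ?_
  simp only [sum_add_distrib, mul_add]
  refine add_le_add le_rfl (add_le_add (le_of_eq ?_) ?_)
  · simp only [← Finset.mul_sum]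
    have e2 := sum_nu (R := R) (S := S) hl (a := (K + i)) (by omega) qA
    rw [e2]
    calc _ = (((2 : ℝ) ^ (K + i) * 2 ^ (K + i))⁻¹ * (4 : ℝ) ^ (K + i)) * (4 * τQ * wA * eA * (√2) ^ i
          * (2 ^ K * 2 ^ K) * cq N K R S qA) := by ring
      _ = _ := by
        rw [pw, one_mul, ← mul_pow, show (2 : ℝ) * 2 = 4 by norm_num]
        ring
  · have h4 : ∀ m ∈ iv (N - (K + i)) S, ∑ n ∈ iv (N - (K + i)) R, (if c - m - n ∈ iv (N - (K + i)) T then
        ((2 : ℝ) ^ (K + i) * 2 ^ (K + i))⁻¹ * (4 * τP * wb * eb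
          * (√2) ^ i * 2 ^ K * ∑ x ∈ iv (K + i) (c - m - n), nu K i qb x m) else 0) ≤
        ∑ n ∈ iv (N - (K + i)) T, ((2 : ℝ) ^ (K + i) * 2 ^ (K + i))⁻¹ * (4 * τP * wb * eb
          * (√2) ^ i * 2 ^ K * ∑ x ∈ iv (K + i) n, nu K i qb x m) := by
      intro m _
      refine H588.sum_refl_le (N - (K + i)) R T (c - m) (fun n => ((2 : ℝ) ^ (K + i) * 2 ^ (K + i))⁻¹ *
        (4 * τP * wb * eb * (√2) ^ i * 2 ^ K * ∑ x ∈ iv (K + i) n, nu K i qb x m)) fun n => ?_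
      have : 0 ≤ ∑ x ∈ iv (K + i) n, nu K i qb x m := Finset.sum_nonneg fun x _ => nu_nonneg _ _ _ _ _
      positivity
    refine (mul_le_mul_of_nonneg_left (sum_le_sum h4)
      (show (0 : ℝ) ≤ 4 ^ (K + i) by positivity)).trans (le_of_eq ?_)
    simp only [← Finset.mul_sum]
    have e2 := sum_nu (R := T) (S := S) hl (a := (K + i)) (by omega) qb
    rw [e2]
    calc _ = (((2 : ℝ) ^ (K + i) * 2 ^ (K + i))⁻¹ * (4 : ℝ) ^ (K + i)) * (4 * τP * wb * eb * (√2) ^ i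
          * (2 ^ K * 2 ^ K) * cq N K T S qb) := by ring
      _ = _ := by
        rw [pw, one_mul, ← mul_pow, show (2 : ℝ) * 2 = 4 by norm_num]
        ring

end plane

/-! ### The packed sums -/

/-- **Packing**: the affected squares of all scales, weighted by their area. -/
theorem sum_cq {N : ℕ} {R S : ℤ} {Q : ℕ → ℤ → ℤ → Prop} {cP : ℝ} (h : H958.PackQ N R S Q cP) :
    ∑ K ∈ range N, (4 : ℝ) ^ K * cq N K R S (Q K) ≤ cP * 4 ^ N := by
  have h1 := h N le_rfl R S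
  have e1 : (H958.Aff N R S Q).filter (fun i => i.1 ≤ N ∧ ix (N - i.1) i.2.1 = R ∧
      ix (N - i.1) i.2.2 = S) = H958.Aff N R S Q := by
    refine filter_true_of_mem fun j hj => ?_
    obtain ⟨h1, h2, h3, _⟩ := H958.mem_Aff.1 hj
    exact ⟨h1.le, mem_iv.1 h2, mem_iv.1 h3⟩
  rw [e1, H958.sum_Aff] at h1
  refine (le_of_eq ?_).trans h1
  refine sum_congr rfl fun K _ => ?_
  unfold cq
  rw [sum_comm, Finset.mul_sum]
  refine sum_congr rfl fun m _ => ?_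
  rw [Finset.mul_sum]
  refine sum_congr rfl fun n _ => ?_
  split_ifs
  · rw [mul_one]
  · rw [mul_zero]

theorem cq_nonneg (N K : ℕ) (R S : ℤ) (q : ℤ → ℤ → Prop) : 0 ≤ cq N K R S q :=
  Finset.sum_nonneg fun _ _ => Finset.sum_nonneg fun _ _ => by split_ifs <;> norm_num

/-- the charges of the offset `i` : kills at the scale `l - i - 1`, middle scale `l` -/
def kch (N : ℕ) (R S : ℤ) (Q : ℕ → ℤ → ℤ → Prop) (i l : ℕ) : ℝ :=
  (√2) ^ (i + 1) * (4 ^ (l - i - 1) * cq N (l - i - 1) R S (Q (l - i - 1)))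

theorem kch_nonneg (N : ℕ) (R S : ℤ) (Q : ℕ → ℤ → ℤ → Prop) (i l : ℕ) : 0 ≤ kch N R S Q i l :=
  mul_nonneg (by positivity) (mul_nonneg (by positivity) (cq_nonneg _ _ _ _ _))

/-- **The sum of the charges over the middle scales.** -/
theorem sum_kch {N : ℕ} {R S : ℤ} {Q : ℕ → ℤ → ℤ → Prop} {cP : ℝ} (h : H958.PackQ N R S Q cP)
    (i : ℕ) : ∑ l ∈ Icc (i + 1) N, kch N R S Q i l ≤ (√2) ^ (i + 1) * (cP * 4 ^ N) := by
  unfold kch
  rw [← Finset.mul_sum]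
  refine mul_le_mul_of_nonneg_left (le_trans ?_ (sum_cq h)) (by positivity)
  rw [← sum_image (f := fun K => (4 : ℝ) ^ K * cq N K R S (Q K)) (g := fun l => l - i - 1)
    (s := Icc (i + 1) N)]
  · refine sum_le_sum_of_subset_of_nonneg (fun K hK => ?_) fun K _ _ =>
      mul_nonneg (by positivity) (cq_nonneg _ _ _ _ _)
    obtain ⟨l, hl, rfl⟩ := mem_image.1 hK
    rw [mem_Icc] at hl
    rw [mem_range]
    omega
  · intro x hx y hy hxy
    rw [coe_Icc, Set.mem_Icc] at hx hy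
    simp only at hxy
    omega

/-- **Paths**: the change of the own energy at the middle scale `l`, offset `i`. -/
theorem EW_path {N : ℕ} {R S : ℤ} {e : ℝ} {Q : ℕ → ℤ → ℤ → Prop} {b : ℕ → ℤ → ℤ → κ → ℝ}
    (h : ∀ K < N, Kill N R S K e (Q K) (b K) (b (K + 1))) {i l : ℕ} (hi : i < l) (hl : l ≤ N)
    (he : 0 ≤ e) {τ w : ℝ} (τ0 : 0 ≤ τ) (w0 : 0 ≤ w) {M : ℤ → ℤ → Matrix κ κ ℝ}
    (hM : ∀ m x, (M m x).PosSemidef) (hw : ∀ m x, (w • (1 : Matrix κ κ ℝ) - M m x).PosSemidef)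
    {a : ℕ} (ha : a ≤ N) (cap : ∀ m ∈ iv (N - l) S, ∀ n ∈ iv (N - a) R,
      (τ • (1 : Matrix _ _ ℝ) - QW a l (b (l - i)) (M m) n m).PosSemidef) :
    EW N R S l (fun a n m => QW a l (b (l - i)) (M m) n m) a ≤
      EW N R S l (fun a n m => QW a l (b (l - i - 1)) (M m) n m) a
        + 8 * τ * w * e * kch N R S Q i l := by
  obtain ⟨K, rfl⟩ : ∃ K, l = K + (i + 1) := ⟨l - i - 1, by omega⟩
  have e1 : K + (i + 1) - i = K + 1 := by omega
  have e2 : K + (i + 1) - i - 1 = K := by omega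
  unfold kch
  rw [e2]
  simp only [e1] at cap ⊢
  refine (EW_kill (h K (by omega)) hl he τ0 w0 hM hw ha cap).trans (le_of_eq ?_)
  ring

/-- **Paths**: the change of the plane functional at the middle scale `l`, offset `i`. -/
theorem MW_path {κ' : Type*} [Fintype κ'] [DecidableEq κ'] {N : ℕ} {R S T : ℤ} {eA eb : ℝ}
    {QA QB : ℕ → ℤ → ℤ → Prop} {A : ℕ → ℤ → ℤ → κ → ℝ} {b : ℕ → ℤ → ℤ → κ' → ℝ}
    (hA : ∀ K < N, Kill N R S K eA (QA K) (A K) (A (K + 1)))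
    (hb : ∀ K < N, Kill N T S K eb (QB K) (b K) (b (K + 1))) {i l : ℕ} (hi : i < l) (hl : l ≤ N)
    (eA0 : 0 ≤ eA) (eb0 : 0 ≤ eb) {τP τQ wA wb : ℝ} (P0 : 0 ≤ τP) (Q0 : 0 ≤ τQ) (wA0 : 0 ≤ wA)
    (wb0 : 0 ≤ wb) {MA : ℤ → ℤ → Matrix κ κ ℝ} {Mb : ℤ → ℤ → Matrix κ' κ' ℝ}
    (pA : ∀ m x, (MA m x).PosSemidef) (pb : ∀ m x, (Mb m x).PosSemidef)
    (hwA : ∀ m x, (wA • (1 : Matrix κ κ ℝ) - MA m x).PosSemidef)
    (hwb : ∀ m x, (wb • (1 : Matrix κ' κ' ℝ) - Mb m x).PosSemidef)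
    (capP : ∀ m ∈ iv (N - l) S, ∀ n ∈ iv (N - l) R,
      (τP • (1 : Matrix _ _ ℝ) - QW l l (A (l - i - 1)) (MA m) n m).PosSemidef)
    (capQ : ∀ m ∈ iv (N - l) S, ∀ n ∈ iv (N - l) T,
      (τQ • (1 : Matrix _ _ ℝ) - QW l l (b (l - i)) (Mb m) n m).PosSemidef) (c : ℤ) :
    MW N R S T l c (fun n m => QW l l (A (l - i)) (MA m) n m)
        (fun n m => QW l l (b (l - i)) (Mb m) n m) ≤
      MW N R S T l c (fun n m => QW l l (A (l - i - 1)) (MA m) n m)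
        (fun n m => QW l l (b (l - i - 1)) (Mb m) n m)
        + 4 * (τQ * wA * eA * kch N R S QA i l + τP * wb * eb * kch N T S QB i l) := by
  obtain ⟨K, rfl⟩ : ∃ K, l = K + (i + 1) := ⟨l - i - 1, by omega⟩
  have e1 : K + (i + 1) - i = K + 1 := by omega
  have e2 : K + (i + 1) - i - 1 = K := by omega
  unfold kch
  simp only [e2] at capP ⊢
  simp only [e1] at capQ ⊢
  refine (MW_kill (hA K (by omega)) (hb K (by omega)) hl eA0 eb0 P0 Q0 wA0 wb0 pA pb hwA hwb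
    capP capQ c).trans (le_of_eq ?_)
  ring

/-! ### The two families of the near term -/

/-- **`PA`**: the change of the own energy at the middle scale `l`, offset `i`. -/
theorem EW_pathA {N : ℕ} {R S : ℤ} {e : ℝ} {Q : ℕ → ℤ → ℤ → Prop} {A : ℕ → ℤ → ℤ → ℝ}
    (h : ∀ K < N, Kill N R S K e (Q K) (un (A K)) (un (A (K + 1)))) {i l : ℕ} (hi : i < l)
    (hl : l ≤ N) (he : 0 ≤ e) {τ : ℝ} (τ0 : 0 ≤ τ) {a : ℕ} (ha : a ≤ N)
    (cap : ∀ m ∈ iv (N - l) S, ∀ n ∈ iv (N - a) R,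
      (τ • (1 : Matrix _ _ ℝ) - PA (A (l - i)) l a n m).PosSemidef) :
    EW N R S l (PA (A (l - i)) l) a ≤ EW N R S l (PA (A (l - i - 1)) l) a
        + 8 * τ * e * kch N R S Q i l := by
  rw [PA_eq] at cap
  rw [PA_eq, PA_eq]
  have h1 := EW_path (M := fun _ _ => (1 : Matrix Unit Unit ℝ)⁻¹) h hi hl he τ0 zero_le_one
    (fun _ _ => PosSemidef.one.inv) (fun _ _ => by
      rw [inv_one, one_smul, sub_self]; exact PosSemidef.zero) ha cap
  rw [mul_one] at h1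
  exact h1

/-- **`QK`**: the change of the own energy at the middle scale `l`, offset `i`. -/
theorem EW_pathK {N : ℕ} {R S : ℤ} {e : ℝ} {Q : ℕ → ℤ → ℤ → Prop} {b : ℕ → ℤ → ℤ → κ → ℝ}
    (h : ∀ K < N, Kill N R S K e (Q K) (b K) (b (K + 1))) {i l : ℕ} (hi : i < l) (hl : l ≤ N)
    (he : 0 ≤ e) {τ w : ℝ} (τ0 : 0 ≤ τ) (w0 : 0 ≤ w) {Kq : ℤ → ℕ → ℤ → Matrix κ κ ℝ}
    (hK : ∀ x m, ((Kq x l m)⁻¹).PosSemidef)
    (hw : ∀ x m, (w • (1 : Matrix κ κ ℝ) - (Kq x l m)⁻¹).PosSemidef)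
    {a : ℕ} (ha : a ≤ N) (cap : ∀ m ∈ iv (N - l) S, ∀ n ∈ iv (N - a) R,
      (τ • (1 : Matrix _ _ ℝ) - QK (b (l - i)) Kq l a n m).PosSemidef) :
    EW N R S l (QK (b (l - i)) Kq l) a ≤ EW N R S l (QK (b (l - i - 1)) Kq l) a
        + 8 * τ * w * e * kch N R S Q i l :=
  EW_path (M := fun m x => (Kq x l m)⁻¹) h hi hl he τ0 w0 (fun m x => hK x m)
    (fun m x => hw x m) ha cap

/-- **`PA`, `QK`**: the change of the plane functional at the middle scale `l`, offset `i`. -/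
theorem MW_pathAK {N : ℕ} {R S T : ℤ} {eA eb : ℝ} {QA QB : ℕ → ℤ → ℤ → Prop}
    {A : ℕ → ℤ → ℤ → ℝ} {b : ℕ → ℤ → ℤ → κ → ℝ}
    (hA : ∀ K < N, Kill N R S K eA (QA K) (un (A K)) (un (A (K + 1))))
    (hb : ∀ K < N, Kill N T S K eb (QB K) (b K) (b (K + 1))) {i l : ℕ} (hi : i < l) (hl : l ≤ N)
    (eA0 : 0 ≤ eA) (eb0 : 0 ≤ eb) {τP τQ w : ℝ} (P0 : 0 ≤ τP) (Q0 : 0 ≤ τQ) (w0 : 0 ≤ w)
    {Kq : ℤ → ℕ → ℤ → Matrix κ κ ℝ} (hK : ∀ x m, ((Kq x l m)⁻¹).PosSemidef)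
    (hw : ∀ x m, (w • (1 : Matrix κ κ ℝ) - (Kq x l m)⁻¹).PosSemidef)
    (capP : ∀ m ∈ iv (N - l) S, ∀ n ∈ iv (N - l) R,
      (τP • (1 : Matrix _ _ ℝ) - PA (A (l - i - 1)) l l n m).PosSemidef)
    (capQ : ∀ m ∈ iv (N - l) S, ∀ n ∈ iv (N - l) T,
      (τQ • (1 : Matrix _ _ ℝ) - QK (b (l - i)) Kq l l n m).PosSemidef) (c : ℤ) :
    MW N R S T l c (PA (A (l - i)) l l) (QK (b (l - i)) Kq l l) ≤
      MW N R S T l c (PA (A (l - i - 1)) l l) (QK (b (l - i - 1)) Kq l l)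
        + 4 * (τQ * eA * kch N R S QA i l + τP * w * eb * kch N T S QB i l) := by
  rw [PA_eq] at capP
  rw [PA_eq, PA_eq]
  have h1 := MW_path (MA := fun _ _ => (1 : Matrix Unit Unit ℝ)⁻¹)
    (Mb := fun m x => (Kq x l m)⁻¹) hA hb hi hl eA0 eb0 P0 Q0 zero_le_one w0
    (fun _ _ => PosSemidef.one.inv) (fun m x => hK x m) (fun _ _ => by
      rw [inv_one, one_smul, sub_self]; exact PosSemidef.zero) (fun m x => hw x m) capP capQ c
  rw [mul_one] at h1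
  exact h1

end

end Vale.Agent.P141.H708
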