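import Vale.Agent.P141.H708.KillT
import Vale.Agent.P141.H922.NbAB4
import Vale.Agent.P141.H205.SUse

/-!
# P141, line (A), near term: the numbers of the neighbour differences

* `capS_psd`, `capS_mid`, `capS_coarse` : the operator cap at the own scale passes to every coarser
  middle and outer scale, and gives the matrix inequality of the families `PA`, `QU`;
* `kill_of_rows` : the data `Kill` from the row energies at the own scales;
* `chg_kill` : the instance of `Chg` for paths (squares killed or born at the scale `t`), any plane;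
* `XX_le`, `sum_XX` : the sum of the changes;
* `nb_kill`, `nb_kill0` : the neighbour differences of the pair, closed numbers.
-/

namespace Vale.Agent.P141.H708

open Finset Matrix Vale.Agent.P141.PL Vale.Agent.P141.PL.H103 Vale.Agent.P141.H103
open Vale.Agent.P141.H588G
open Vale.Agent.P075 (Ix val)
open Vale.Agent.P141.H205 (CapS capS_out)
open Vale.Agent.P141.H922.NB (QU Chg XX Wd Phi Vz sqv nb_closed QU_symm QU_own QU_out PA_outA
  PA_own_le QU_own_le)

noncomputable section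

open scoped Classical

variable {κ : Type*} [Fintype κ] [DecidableEq κ]

/-! ### Caps -/

omit [DecidableEq κ] in
theorem capS_mid {c : ℝ} {a k : ℕ} {b : ℤ → ℤ → κ → ℝ} {n m : ℤ}
    (h1 : CapS c a k b n (2 * m)) (h2 : CapS c a k b n (2 * m + 1)) : CapS c a (k + 1) b n m := by
  intro w
  have h1 := h1 w
  have h2 := h2 w
  have e1 : ∑ y ∈ iv (k + 1) m, w y ^ 2 = ∑ y ∈ iv k (2 * m), w y ^ 2 +
      ∑ y ∈ iv k (2 * m + 1), w y ^ 2 := sum_iv_two k m _
  have h3 : ∑ x ∈ iv a n, ∑ l, (∑ y ∈ iv (k + 1) m, w y * b x y l) ^ 2 ≤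
      ∑ x ∈ iv a n, ∑ l, (2 * (∑ y ∈ iv k (2 * m), w y * b x y l) ^ 2 +
        2 * (∑ y ∈ iv k (2 * m + 1), w y * b x y l) ^ 2) := by
    refine sum_le_sum fun x _ => sum_le_sum fun l _ => ?_
    have e2 : ∑ y ∈ iv (k + 1) m, w y * b x y l = ∑ y ∈ iv k (2 * m), w y * b x y l +
      ∑ y ∈ iv k (2 * m + 1), w y * b x y l := sum_iv_two k m _
    rw [e2]
    nlinarith [sq_nonneg ((∑ y ∈ iv k (2 * m), w y * b x y l) -
      ∑ y ∈ iv k (2 * m + 1), w y * b x y l)]
  refine h3.trans ?_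
  simp only [sum_add_distrib, ← Finset.mul_sum]
  rw [e1, pow_succ]
  nlinarith

omit [DecidableEq κ] in
/-- **The cap passes to coarser scales.** -/
theorem capS_coarse {c : ℝ} {N k : ℕ} {R S : ℤ} {b : ℤ → ℤ → κ → ℝ}
    (h : ∀ n ∈ iv (N - k) R, ∀ m ∈ iv (N - k) S, CapS c k k b n m) (l a : ℕ) (hl : k ≤ l)
    (ha : k ≤ a) (hlN : l ≤ N) (haN : a ≤ N) :
    ∀ n ∈ iv (N - a) R, ∀ m ∈ iv (N - l) S, CapS c a l b n m := by
  have h1 : ∀ l, k ≤ l → l ≤ N → ∀ n ∈ iv (N - k) R, ∀ m ∈ iv (N - l) S, CapS c k l b n m := by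
    intro l hl
    induction l, hl using Nat.le_induction with
    | base => exact fun _ => h
    | succ l hl ih =>
      intro hN n hn m hm
      have e : N - l = (N - (l + 1)) + 1 := by omega
      refine capS_mid (ih (by omega) n hn _ ?_) (ih (by omega) n hn _ ?_)
      · rw [e, H588.mem_iv_double]
        exact hm
      · rw [e, H588.mem_iv_double']
        exact hm
  induction a, ha using Nat.le_induction with
  | base => exact fun n hn m hm => h1 l hl hlN n hn m hm
  | succ a ha ih =>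
    intro n hn m hm
    have e : N - a = (N - (a + 1)) + 1 := by omega
    refine capS_out (ih (by omega) _ ?_ m hm) (ih (by omega) _ ?_ m hm)
    · rw [e, H588.mem_iv_double]
      exact hn
    · rw [e, H588.mem_iv_double']
      exact hn

/-- **The cap as a matrix inequality.** -/
theorem capS_psd {c : ℝ} {a k : ℕ} {b : ℤ → ℤ → κ → ℝ} {n m : ℤ} (h : CapS c a k b n m) :
    (c • (1 : Matrix (Ix k) (Ix k) ℝ) - QW a k b (fun _ => 1) n m).PosSemidef := by
  refine .of_dotProduct_mulVec_nonneg ?_ fun w => ?_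
  · rw [IsHermitian, conjTranspose_eq_transpose_of_trivial, transpose_sub, transpose_smul,
      transpose_one, QW_symm (fun _ => transpose_one)]
  · rw [star_trivial, Matrix.sub_mulVec, dotProduct_sub, Matrix.smul_mulVec, Matrix.one_mulVec,
      dotProduct_smul, smul_eq_mul, sub_nonneg]
    set W : ℤ → ℝ := fun y => ∑ j : Ix k, if y = 2 ^ k * m + val k j then w j else 0 with hW
    have hWj : ∀ j : Ix k, W (2 ^ k * m + val k j) = w j := by
      intro j
      rw [hW]
      simp only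
      rw [Finset.sum_eq_single j]
      · rw [if_pos rfl]
      · intro i _ hij
        rw [if_neg]
        intro h2
        apply hij
        refine H205.val_inj k i j ?_
        have h3 : (val k j : ℤ) = val k i := by linarith
        exact_mod_cast h3.symm
      · simp
    have h1 := h W
    have e1 : ∑ y ∈ iv k m, W y ^ 2 = w ⬝ᵥ w := by
      rw [H588.sum_iv]
      exact sum_congr rfl fun j _ => by rw [hWj]; ring
    have e2 : w ⬝ᵥ QW a k b (fun _ => 1) n m *ᵥ w = ((2 : ℝ) ^ a * 2 ^ k)⁻¹ *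
        ∑ x ∈ iv a n, ∑ l, (∑ y ∈ iv k m, W y * b x y l) ^ 2 := by
      have e3 : ∀ x, ∑ l, (∑ y ∈ iv k m, W y * b x y l) ^ 2 =
          ∑ j : Ix k, ∑ j' : Ix k, w j * w j' *
            (b x (2 ^ k * m + val k j) ⬝ᵥ b x (2 ^ k * m + val k j')) := by
        intro x
        have e4 : ∀ l, (∑ y ∈ iv k m, W y * b x y l) ^ 2 =
            ∑ j : Ix k, ∑ j' : Ix k, w j * w j' *
              (b x (2 ^ k * m + val k j) l * b x (2 ^ k * m + val k j') l) := by
          intro l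
          rw [H588.sum_iv, sq, Finset.sum_mul_sum]
          exact sum_congr rfl fun j _ => sum_congr rfl fun j' _ => by rw [hWj, hWj]; ring
        simp only [e4]
        rw [sum_comm]
        refine sum_congr rfl fun j _ => ?_
        rw [sum_comm]
        refine sum_congr rfl fun j' _ => ?_
        rw [dotProduct, Finset.mul_sum]
      have hG : ∀ j j' : Ix k, QW a k b (fun _ => 1) n m j j' = ((2 : ℝ) ^ a * 2 ^ k)⁻¹ *
          ∑ x ∈ iv a n, b x (2 ^ k * m + val k j) ⬝ᵥ b x (2 ^ k * m + val k j') := by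
        intro j j'
        unfold QW
        congr 1
        refine sum_congr rfl fun x _ => ?_
        rw [one_mulVec]
      have e5 : w ⬝ᵥ QW a k b (fun _ => 1) n m *ᵥ w = ∑ j : Ix k, w j *
          ∑ j' : Ix k, QW a k b (fun _ => 1) n m j j' * w j' := rfl
      rw [e5]
      simp only [e3, hG]
      rw [sum_comm, Finset.mul_sum]
      refine sum_congr rfl fun j _ => ?_
      rw [sum_comm, Finset.mul_sum, Finset.mul_sum]
      refine sum_congr rfl fun j' _ => ?_
      rw [← Finset.mul_sum]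
      ring
    rw [e2, inv_mul_le_iff₀ (by positivity)]
    rw [e1] at h1
    refine h1.trans (le_of_eq ?_)
    ring

theorem QU_eq (b : ℤ → ℤ → κ → ℝ) (k : ℕ) :
    QU b k = fun a n m => QW a k b (fun _ => 1) n m := by
  funext a n m
  unfold QU QK
  simp only [inv_one]

theorem PA_eqU (A : ℤ → ℤ → ℝ) (k : ℕ) :
    PA A k = fun a n m => QW a k (un A) (fun _ => 1) n m := by
  rw [PA_eq]
  funext a n m
  unfold QK
  simp only [inv_one]

/-! ### The data -/

omit [DecidableEq κ] in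
/-- **`Kill` from the row energies at the own scales.** -/
theorem kill_of_rows {N : ℕ} {R S : ℤ} {e : ℝ} {Q : ℕ → ℤ → ℤ → Prop} {b : ℕ → ℤ → ℤ → κ → ℝ}
    (he : 0 ≤ e) (h0 : b 0 = 0)
    (ag : ∀ K < N, ∀ x ∈ iv N R, ∀ y ∈ iv N S, ¬ Q K (ix K x) (ix K y) → b (K + 1) x y = b K x y)
    (rb : ∀ K < N, ∀ x ∈ iv N R, ∀ m ∈ iv (N - K) S,
      ∑ y ∈ iv K m, b (K + 1) x y ⬝ᵥ b (K + 1) x y ≤ e * 2 ^ K) :
    ∀ K < N, Kill N R S K e (Q K) (b K) (b (K + 1)) := by
  intro K hK
  refine ⟨ag K hK, fun x hx m hm => ?_, rb K hK⟩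
  cases K with
  | zero =>
    rw [h0]
    simp only [Pi.zero_apply, dotProduct_zero, sum_const_zero]
    positivity
  | succ K =>
    have e1 : N - K = (N - (K + 1)) + 1 := by omega
    have h1 := rb K (by omega) x hx (2 * m) (by rw [e1, H588.mem_iv_double]; exact hm)
    have h2 := rb K (by omega) x hx (2 * m + 1) (by rw [e1, H588.mem_iv_double']; exact hm)
    rw [sum_iv_two K m fun y => b (K + 1) x y ⬝ᵥ b (K + 1) x y, pow_succ]
    linarith

/-- the charge of the scale `t` -/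
def cha (N : ℕ) (R S : ℤ) (Q : ℕ → ℤ → ℤ → Prop) (t : ℕ) : ℝ := 4 ^ t * cq N t R S (Q t)

theorem cha_nonneg (N : ℕ) (R S : ℤ) (Q : ℕ → ℤ → ℤ → Prop) (t : ℕ) : 0 ≤ cha N R S Q t :=
  mul_nonneg (by positivity) (cq_nonneg _ _ _ _ _)

/-- the paths of the near term: functions of the time `k`, squares of scale `t` affected in the
step `t → t + 1`, cap and row energy at the own scale -/
structure PathK (N : ℕ) (R S : ℤ) (Q : ℕ → ℤ → ℤ → Prop) (b : ℕ → ℤ → ℤ → κ → ℝ) (τ e : ℝ) :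
    Prop where
  τ0 : 0 ≤ τ
  e0 : 0 ≤ e
  kill : ∀ K < N, Kill N R S K e (Q K) (b K) (b (K + 1))
  cap : ∀ k, k ≤ N → ∀ n ∈ iv (N - k) R, ∀ m ∈ iv (N - k) S, CapS τ k k (b k) n m

/-- **Change of the own energy**, functions of time `t → t + 1`, middle scale `t + j`, outer scale
at least `t + 1`. -/
theorem EW_chg {N : ℕ} {R S : ℤ} {Q : ℕ → ℤ → ℤ → Prop} {b : ℕ → ℤ → ℤ → κ → ℝ} {τ e : ℝ}
    (h : PathK N R S Q b τ e) {t j a : ℕ} (hj : 1 ≤ j) (htj : t + j ≤ N) (h1 : t + 1 ≤ a)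
    (h2 : a ≤ N) :
    EW N R S (t + j) (fun a n m => QW a (t + j) (b (t + 1)) (fun _ => 1) n m) a ≤
      EW N R S (t + j) (fun a n m => QW a (t + j) (b t) (fun _ => 1) n m) a
        + 8 * τ * e * (√2) ^ j * cha N R S Q t := by
  have c1 := capS_coarse (h.cap (t + 1) (by omega)) (t + j) a (by omega) h1 htj h2
  have h3 := EW_kill (M := fun _ _ => (1 : Matrix κ κ ℝ)) (w := 1) (h.kill t (by omega)) htj h.e0
    h.τ0 zero_le_one (fun _ _ => PosSemidef.one)
    (fun _ _ => by rw [one_smul, sub_self]; exact PosSemidef.zero) (a := a) h2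
    (fun m hm n hn => capS_psd (c1 n hn m hm))
  rw [mul_one] at h3
  exact h3

/-- **Change of the plane functional**, functions of time `t → t + 1`, middle scale `t + j`. -/
theorem MW_chg {κ' : Type*} [Fintype κ'] [DecidableEq κ'] {N : ℕ} {R S T : ℤ}
    {QA QB : ℕ → ℤ → ℤ → Prop} {A : ℕ → ℤ → ℤ → κ → ℝ} {b : ℕ → ℤ → ℤ → κ' → ℝ}
    {τP eA τQ eb : ℝ} (hA : PathK N R S QA A τP eA) (hb : PathK N T S QB b τQ eb) {t j : ℕ}
    (hj : 1 ≤ j) (htj : t + j ≤ N) (c : ℤ) :
    MW N R S T (t + j) c (fun n m => QW (t + j) (t + j) (A (t + 1)) (fun _ => 1) n m)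
        (fun n m => QW (t + j) (t + j) (b (t + 1)) (fun _ => 1) n m) ≤
      MW N R S T (t + j) c (fun n m => QW (t + j) (t + j) (A t) (fun _ => 1) n m)
        (fun n m => QW (t + j) (t + j) (b t) (fun _ => 1) n m)
        + 4 * (√2) ^ j * (τQ * eA * cha N R S QA t + τP * eb * cha N T S QB t) := by
  have c1 := capS_coarse (hA.cap t (by omega)) (t + j) (t + j) (by omega) (by omega) htj htj
  have c2 := capS_coarse (hb.cap (t + 1) (by omega)) (t + j) (t + j) (by omega) (by omega) htj htj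
  have h3 := MW_kill (MA := fun _ _ => (1 : Matrix κ κ ℝ)) (Mb := fun _ _ => (1 : Matrix κ' κ' ℝ))
    (wA := 1) (wb := 1) (hA.kill t (by omega)) (hb.kill t (by omega)) htj hA.e0 hb.e0 hA.τ0 hb.τ0
    zero_le_one zero_le_one (fun _ _ => PosSemidef.one) (fun _ _ => PosSemidef.one)
    (fun _ _ => by rw [one_smul, sub_self]; exact PosSemidef.zero)
    (fun _ _ => by rw [one_smul, sub_self]; exact PosSemidef.zero)
    (fun m hm n hn => capS_psd (c1 n hn m hm)) (fun m hm n hn => capS_psd (c2 n hn m hm)) c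
  refine h3.trans (le_of_eq ?_)
  unfold cha
  ring

/-- **The instance of `Chg`**, any plane. -/
theorem chg_kill {N : ℕ} {R S T : ℤ} {QA QB : ℕ → ℤ → ℤ → Prop} {A : ℕ → ℤ → ℤ → ℝ}
    {b : ℕ → ℤ → ℤ → κ → ℝ} {τP eA τQ eb : ℝ}
    (hA : PathK N R S QA (fun k => un (A k)) τP eA) (hb : PathK N T S QB b τQ eb) (c : ℕ → ℤ) :
    Chg N R S T c A b (fun j t _ => 8 * τP * eA * (√2) ^ j * cha N R S QA t)
      (fun j t _ => 8 * τQ * eb * (√2) ^ j * cha N T S QB t)
      (fun j t => 4 * (√2) ^ j * (τQ * eA * cha N R S QA t + τP * eb * cha N T S QB t)) where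
  hA := fun j t hj ht htj a h1 h2 => by
    rw [PA_eqU, PA_eqU]
    exact EW_chg hA hj htj.le h1 h2
  hB := fun j t hj ht htj a h1 h2 => by
    rw [QU_eq, QU_eq]
    exact EW_chg hb hj htj.le h1 h2
  hM := fun j t hj ht htj => by
    rw [PA_eqU, PA_eqU, QU_eq, QU_eq]
    exact MW_chg hA hb hj htj.le _

/-! ### The sum of the changes -/

theorem WW_const {N k : ℕ} {d : ℝ} (hd : 0 ≤ d) : WW N k (fun _ => d) ≤ 4 * d := by
  unfold WW
  rw [← Finset.sum_mul]
  refine mul_le_mul_of_nonneg_right ?_ hd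
  rw [H922.NB.geo34]
  have : (0 : ℝ) ≤ (3 / 4) ^ (N - k + 1) := by positivity
  linarith

theorem XX_le {N D : ℕ} {j : ℕ} {dE dF xM : ℕ → ℕ → ℝ} (hE : ∀ t, 0 ≤ dE j t)
    (hF : ∀ t, 0 ≤ dF j t) :
    XX N D (fun j t _ => dE j t) (fun j t _ => dF j t) xM j ≤
      ∑ t ∈ Ico 1 (N - j), (xM j t + 4 * (4 * D + 1) * (j + 1) * (dE j t + dF j t)) := by
  unfold XX
  refine sum_le_sum fun t _ => ?_
  have h1 := WW_const (N := N) (k := t + j) (hE t)
  have h2 := WW_const (N := N) (k := t + j) (hF t)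
  have h3 : ∑ i ∈ range j, (WW N (t + i + 1) (fun _ => dE j t) + WW N (t + i + 1) fun _ => dF j t)
      ≤ j * (4 * dE j t + 4 * dF j t) := by
    refine (sum_le_sum fun i _ => add_le_add (WW_const (hE t)) (WW_const (hF t))).trans ?_
    rw [sum_const, card_range, nsmul_eq_mul]
  have hD : (0 : ℝ) ≤ 4 * D + 1 := by positivity
  have h4 := mul_le_mul_of_nonneg_left (add_le_add (add_le_add h1 h2) h3) hD
  have h5 : (4 * (D : ℝ) + 1) * (4 * dE j t + 4 * dF j t + j * (4 * dE j t + 4 * dF j t)) =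
      4 * (4 * D + 1) * (j + 1) * (dE j t + dF j t) := by ring
  linarith

theorem geo943 (n : ℕ) : ∑ i ∈ range n, (943 / 1000 : ℝ) ^ i * (i + 2) ≤ 330 := by
  have : ∀ n : ℕ, ∑ i ∈ range n, (943 / 1000 : ℝ) ^ i * (i + 2) =
      (1057000 / 3249 : ℝ) - (1057000 / 3249 + 1000 / 57 * n) * (943 / 1000) ^ n := by
    intro n
    induction n with
    | zero => simp
    | succ n ih =>
      rw [sum_range_succ, ih, pow_succ]
      push_cast
      ring
  rw [this]
  have : (0 : ℝ) ≤ (1057000 / 3249 + 1000 / 57 * n) * (943 / 1000) ^ n := by positivity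
  linarith

/-- **The sum of the changes over all distances.** -/
theorem sum_XX {N D : ℕ} {R S T : ℤ} {QA QB : ℕ → ℤ → ℤ → Prop} {τP eA τQ eb MA MB : ℝ}
    (P0 : 0 ≤ τP) (Q0 : 0 ≤ τQ) (eA0 : 0 ≤ eA) (eb0 : 0 ≤ eb)
    (hMA : ∑ t ∈ range N, cha N R S QA t ≤ MA) (hMB : ∑ t ∈ range N, cha N T S QB t ≤ MB) :
    ∑ i ∈ range (N - 1), (2 / 3 : ℝ) ^ i *
        XX N D (fun j t _ => 8 * τP * eA * (√2) ^ j * cha N R S QA t)
          (fun j t _ => 8 * τQ * eb * (√2) ^ j * cha N T S QB t)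
          (fun j t => 4 * (√2) ^ j * (τQ * eA * cha N R S QA t + τP * eb * cha N T S QB t)) (i + 1)
      ≤ 2000 * (τQ * eA * MA + τP * eb * MB)
        + 15000 * (4 * D + 1) * (τP * eA * MA + τQ * eb * MB) := by
  have a0 : ∀ t, 0 ≤ cha N R S QA t := cha_nonneg N R S QA
  have b0 : ∀ t, 0 ≤ cha N T S QB t := cha_nonneg N T S QB
  have MA0 : 0 ≤ MA := (Finset.sum_nonneg fun t _ => a0 t).trans hMA
  have MB0 : 0 ≤ MB := (Finset.sum_nonneg fun t _ => b0 t).trans hMB
  have hs2 : √2 ≤ 14142136 / 10000000 := by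
    rw [Real.sqrt_le_left (by norm_num)]
    norm_num
  have hs0 : (0 : ℝ) ≤ √2 := Real.sqrt_nonneg 2
  set X : ℝ := 4 * (τQ * eA * MA + τP * eb * MB) + 32 * (4 * D + 1) * (τP * eA * MA + τQ * eb * MB)
    with hX
  have hX1 : 0 ≤ τQ * eA * MA + τP * eb * MB := by positivity
  have hX2 : 0 ≤ τP * eA * MA + τQ * eb * MB := by positivity
  have hX0 : 0 ≤ X := by positivity
  have key : ∀ i ∈ range (N - 1), (2 / 3 : ℝ) ^ i *
        XX N D (fun j t _ => 8 * τP * eA * (√2) ^ j * cha N R S QA t)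
          (fun j t _ => 8 * τQ * eb * (√2) ^ j * cha N T S QB t)
          (fun j t => 4 * (√2) ^ j * (τQ * eA * cha N R S QA t + τP * eb * cha N T S QB t)) (i + 1)
      ≤ 14142136 / 10000000 * X * ((943 / 1000) ^ i * (i + 2)) := by
    intro i _
    have h1 := XX_le (N := N) (D := D) (j := i + 1)
      (dE := fun j t => 8 * τP * eA * (√2) ^ j * cha N R S QA t)
      (dF := fun j t => 8 * τQ * eb * (√2) ^ j * cha N T S QB t)
      (xM := fun j t => 4 * (√2) ^ j * (τQ * eA * cha N R S QA t + τP * eb * cha N T S QB t))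
      (fun t => by have := a0 t; positivity) (fun t => by have := b0 t; positivity)
    have h2 : ∑ t ∈ Ico 1 (N - (i + 1)),
        (4 * (√2) ^ (i + 1) * (τQ * eA * cha N R S QA t + τP * eb * cha N T S QB t)
          + 4 * (4 * D + 1) * ((i + 1 : ℕ) + 1) * (8 * τP * eA * (√2) ^ (i + 1) * cha N R S QA t
            + 8 * τQ * eb * (√2) ^ (i + 1) * cha N T S QB t))
        ≤ (√2) ^ (i + 1) * (4 * (τQ * eA * MA + τP * eb * MB)
          + 32 * (4 * D + 1) * (i + 2) * (τP * eA * MA + τQ * eb * MB)) := by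
      have e1 : ∀ t, (4 * (√2) ^ (i + 1) * (τQ * eA * cha N R S QA t + τP * eb * cha N T S QB t)
          + 4 * (4 * (D : ℝ) + 1) * ((i + 1 : ℕ) + 1) *
            (8 * τP * eA * (√2) ^ (i + 1) * cha N R S QA t
            + 8 * τQ * eb * (√2) ^ (i + 1) * cha N T S QB t)) =
          ((√2) ^ (i + 1) * (4 * (τQ * eA) + 32 * (4 * D + 1) * (i + 2) * (τP * eA)))
            * cha N R S QA t
          + ((√2) ^ (i + 1) * (4 * (τP * eb) + 32 * (4 * D + 1) * (i + 2) * (τQ * eb)))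
            * cha N T S QB t := by
        intro t
        push_cast
        ring
      simp only [e1]
      rw [sum_add_distrib, ← Finset.mul_sum, ← Finset.mul_sum]
      have s1 : ∑ t ∈ Ico 1 (N - (i + 1)), cha N R S QA t ≤ MA :=
        (sum_le_sum_of_subset_of_nonneg (fun t ht => by
          rw [mem_Ico] at ht
          rw [mem_range]
          omega) fun t _ _ => a0 t).trans hMA
      have s2 : ∑ t ∈ Ico 1 (N - (i + 1)), cha N T S QB t ≤ MB :=
        (sum_le_sum_of_subset_of_nonneg (fun t ht => by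
          rw [mem_Ico] at ht
          rw [mem_range]
          omega) fun t _ _ => b0 t).trans hMB
      have p1 := mul_le_mul_of_nonneg_left s1 (show (0 : ℝ) ≤ (√2) ^ (i + 1) *
        (4 * (τQ * eA) + 32 * (4 * D + 1) * (i + 2) * (τP * eA)) by positivity)
      have p2 := mul_le_mul_of_nonneg_left s2 (show (0 : ℝ) ≤ (√2) ^ (i + 1) *
        (4 * (τP * eb) + 32 * (4 * D + 1) * (i + 2) * (τQ * eb)) by positivity)
      refine (add_le_add p1 p2).trans (le_of_eq ?_)
      ring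
    have h3 := h1.trans h2
    have h4 : (√2) ^ (i + 1) * (4 * (τQ * eA * MA + τP * eb * MB)
          + 32 * (4 * D + 1) * (i + 2) * (τP * eA * MA + τQ * eb * MB))
        ≤ (√2) ^ (i + 1) * ((i + 2) * X) := by
      refine mul_le_mul_of_nonneg_left ?_ (by positivity)
      rw [hX]
      have : (1 : ℝ) ≤ i + 2 := by
        have : (0 : ℝ) ≤ i := Nat.cast_nonneg i
        linarith
      have := mul_le_mul_of_nonneg_right this
        (show 0 ≤ 4 * (τQ * eA * MA + τP * eb * MB) by positivity)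
      linarith
    have h5 := mul_le_mul_of_nonneg_left (h3.trans h4) (show (0 : ℝ) ≤ (2 / 3) ^ i by positivity)
    refine h5.trans ?_
    have h6 : (2 / 3 : ℝ) ^ i * (√2) ^ (i + 1) ≤ 14142136 / 10000000 * (943 / 1000) ^ i := by
      rw [pow_succ, ← mul_assoc, ← mul_pow, mul_comm]
      refine mul_le_mul hs2 (pow_le_pow_left₀ (by positivity) ?_ i) (by positivity) (by norm_num)
      linarith
    have h7 := mul_le_mul_of_nonneg_right h6 (show 0 ≤ ((i : ℝ) + 2) * X by positivity)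
    refine (le_of_eq ?_).trans (h7.trans (le_of_eq ?_))
    · ring
    · ring
  refine (sum_le_sum key).trans ?_
  rw [← Finset.mul_sum]
  refine (mul_le_mul_of_nonneg_left (geo943 (N - 1)) (by positivity)).trans ?_
  rw [hX]
  have hD : (0 : ℝ) ≤ 4 * D + 1 := by positivity
  have := mul_nonneg hD hX2
  nlinarith

/-- **The neighbour differences of the pair with kills**: `W0` own energies at the finest scale,
`E0` own energies on the top cell. -/
theorem nb_kill {N D : ℕ} {R S T : ℤ} {QA QB : ℕ → ℤ → ℤ → Prop} {A : ℕ → ℤ → ℤ → ℝ}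
    {b : ℕ → ℤ → ℤ → κ → ℝ} {τP eA τQ eb MA MB E0 : ℝ}
    (hA : PathK N R S QA (fun k => un (A k)) τP eA) (hb : PathK N T S QB b τQ eb)
    (hMA : ∑ t ∈ range N, cha N R S QA t ≤ MA) (hMB : ∑ t ∈ range N, cha N T S QB t ≤ MB)
    {c : ℕ → ℤ} (hc : H652.PlD D c)
    (hW : EW N R S 1 (PA (A 1) 1) 1 + EW N T S 1 (QU (b 1) 1) 1 ≤ E0)
    (h0 : ∀ k, 1 ≤ k → k ≤ N → EW N R S N (PA (A k) N) k + EW N T S N (QU (b k) N) k ≤ E0) :
    ∑ K ∈ Icc 1 N, ∑ m ∈ Wd N K S, Phi N R T K (c K) m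
        (fun z x => sqv (H352.nd (Vz N S (A K) (b K) z x) K m))
      ≤ (11008 * D + 13920) * E0
        + 720000 * (4 * D + 5) * (τP * eA * MA + τQ * eb * MB + τQ * eA * MA + τP * eb * MB) := by
  refine (nb_closed hc (chg_kill hA hb c) (chg_kill hA hb _) hW h0).trans ?_
  refine add_le_add le_rfl ?_
  have h := sum_XX (N := N) (D := D + 1) (R := R) (S := S) (T := T) (QA := QA) (QB := QB)
    hA.τ0 hb.τ0 hA.e0 hb.e0 hMA hMB
  have a0 : 0 ≤ MA := (Finset.sum_nonneg fun t _ => cha_nonneg N R S QA t).trans hMA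
  have b0 : 0 ≤ MB := (Finset.sum_nonneg fun t _ => cha_nonneg N T S QB t).trans hMB
  have p1 : 0 ≤ τQ * eA * MA + τP * eb * MB := by
    have := hA.τ0
    have := hb.τ0
    have := hA.e0
    have := hb.e0
    positivity
  have hD : (0 : ℝ) ≤ D := Nat.cast_nonneg D
  have p2 := mul_nonneg hD p1
  push_cast at h ⊢
  linarith

/-- **The neighbour differences of the pair, changes in mass form**: `zA t l`, `zB t l` the
numbers of the step `t → t + 1` at the middle scale `l`, every outer scale at least `t + 1`. -/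
theorem nb_zk {N D : ℕ} {R S T : ℤ} {A : ℕ → ℤ → ℤ → ℝ} {b : ℕ → ℤ → ℤ → κ → ℝ} {τA τb E0 : ℝ}
    {zA zB : ℕ → ℕ → ℝ} (tA : 0 ≤ τA) (tb : 0 ≤ τb) (zA0 : ∀ t l, 0 ≤ zA t l)
    (zB0 : ∀ t l, 0 ≤ zB t l) {c : ℕ → ℤ} (hc : H652.PlD D c)
    (hEA : ∀ t l a, 1 ≤ t → t + 1 ≤ l → l < N → t + 1 ≤ a → a ≤ N →
      EW N R S l (PA (A (t + 1)) l) a ≤ EW N R S l (PA (A t) l) a + 2 * τA * zA t l)
    (hEB : ∀ t l a, 1 ≤ t → t + 1 ≤ l → l < N → t + 1 ≤ a → a ≤ N →
      EW N T S l (QU (b (t + 1)) l) a ≤ EW N T S l (QU (b t) l) a + 2 * τb * zB t l)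
    (hMW : ∀ t l c', 1 ≤ t → t + 1 ≤ l → l < N →
      MW N R S T l c' (PA (A (t + 1)) l l) (QU (b (t + 1)) l l)
        ≤ MW N R S T l c' (PA (A t) l l) (QU (b t) l l) + (τb * zA t l + τA * zB t l))
    (hW : EW N R S 1 (PA (A 1) 1) 1 + EW N T S 1 (QU (b 1) 1) 1 ≤ E0)
    (h0 : ∀ k, 1 ≤ k → k ≤ N → EW N R S N (PA (A k) N) k + EW N T S N (QU (b k) N) k ≤ E0) :
    ∑ K ∈ Icc 1 N, ∑ m ∈ Wd N K S, Phi N R T K (c K) m
        (fun z x => sqv (H352.nd (Vz N S (A K) (b K) z x) K m))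
      ≤ (11008 * D + 13920) * E0 + 432 * (4 * D + 5) * (τA + τb) *
        ∑ i ∈ range (N - 1), (2 / 3 : ℝ) ^ i * (i + 2) *
          ∑ t ∈ Ico 1 (N - (i + 1)), (zA t (t + (i + 1)) + zB t (t + (i + 1))) := by
  have chg : ∀ c' : ℕ → ℤ, Chg N R S T c' A b (fun j t _ => 2 * τA * zA t (t + j))
      (fun j t _ => 2 * τb * zB t (t + j)) (fun j t => τb * zA t (t + j) + τA * zB t (t + j)) := by
    intro c'
    refine ⟨fun j t hj ht htj a h1 h2 => ?_, fun j t hj ht htj a h1 h2 => ?_,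
      fun j t hj ht htj => ?_⟩
    · exact hEA t (t + j) a ht (by omega) htj h1 h2
    · exact hEB t (t + j) a ht (by omega) htj h1 h2
    · exact hMW t (t + j) _ ht (by omega) htj
  refine (nb_closed hc (chg c) (chg _) hW h0).trans ?_
  refine add_le_add le_rfl ?_
  have key : ∀ i ∈ range (N - 1), (2 / 3 : ℝ) ^ i *
      XX N (D + 1) (fun j t _ => 2 * τA * zA t (t + j)) (fun j t _ => 2 * τb * zB t (t + j))
        (fun j t => τb * zA t (t + j) + τA * zB t (t + j)) (i + 1) ≤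
      9 * (4 * D + 5) * (τA + τb) * ((2 / 3 : ℝ) ^ i * (i + 2) *
          ∑ t ∈ Ico 1 (N - (i + 1)), (zA t (t + (i + 1)) + zB t (t + (i + 1)))) := by
    intro i _
    have h1 := XX_le (N := N) (D := D + 1) (j := i + 1)
      (dE := fun j t => 2 * τA * zA t (t + j)) (dF := fun j t => 2 * τb * zB t (t + j))
      (xM := fun j t => τb * zA t (t + j) + τA * zB t (t + j))
      (fun t => by have := zA0 t (t + (i + 1)); positivity)
      (fun t => by have := zB0 t (t + (i + 1)); positivity)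
    have h2 : ∑ t ∈ Ico 1 (N - (i + 1)),
        ((τb * zA t (t + (i + 1)) + τA * zB t (t + (i + 1)))
          + 4 * (4 * (D + 1 : ℕ) + 1) * ((i + 1 : ℕ) + 1) * (2 * τA * zA t (t + (i + 1))
            + 2 * τb * zB t (t + (i + 1))))
        ≤ ∑ t ∈ Ico 1 (N - (i + 1)), 9 * (4 * D + 5) * (τA + τb) * (i + 2) *
          (zA t (t + (i + 1)) + zB t (t + (i + 1))) := by
      refine sum_le_sum fun t _ => ?_
      set u := zA t (t + (i + 1)) with hu
      set v := zB t (t + (i + 1)) with hv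
      have u0 : 0 ≤ u := zA0 _ _
      have v0 : 0 ≤ v := zB0 _ _
      have hi : (0 : ℝ) ≤ i := Nat.cast_nonneg i
      have hD : (0 : ℝ) ≤ D := Nat.cast_nonneg D
      have p1 : 0 ≤ τA * v := mul_nonneg tA v0
      have p2 : 0 ≤ τb * u := mul_nonneg tb u0
      have p3 : 0 ≤ τA * u := mul_nonneg tA u0
      have p4 : 0 ≤ τb * v := mul_nonneg tb v0
      have e1 : 9 * (4 * (D : ℝ) + 5) * (τA + τb) * (i + 2) * (u + v) -
          ((τb * u + τA * v) + 4 * (4 * (D + 1 : ℕ) + 1) * ((i + 1 : ℕ) + 1) *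
            (2 * τA * u + 2 * τb * v)) =
          (4 * D + 5) * (i + 2) * (τA * u + τb * v)
          + (9 * (4 * D + 5) * (i + 2) - 1) * (τA * v + τb * u) := by
        push_cast
        ring
      have q1 : 0 ≤ (4 * (D : ℝ) + 5) * (i + 2) * (τA * u + τb * v) := by positivity
      have q2 : 0 ≤ (9 * (4 * (D : ℝ) + 5) * (i + 2) - 1) * (τA * v + τb * u) := by
        refine mul_nonneg ?_ (by positivity)
        nlinarith [mul_nonneg hD hi]
      linarith
    have h3 := mul_le_mul_of_nonneg_left (h1.trans h2) (show (0 : ℝ) ≤ (2 / 3) ^ i by positivity)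
    refine h3.trans (le_of_eq ?_)
    rw [← Finset.mul_sum]
    ring
  refine (mul_le_mul_of_nonneg_left (sum_le_sum key) (by norm_num : (0 : ℝ) ≤ 48)).trans
    (le_of_eq ?_)
  rw [← Finset.mul_sum]
  ring

end

end Vale.Agent.P141.H708
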