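import Vale.Agent.P141.H708.PNum2
import Vale.Agent.P141.H352.ZkM

/-!
# P141, line (A), near term: the neighbour differences of a pair of path families at one root

`nb_root` : caps on the rectangles coarser than the time, masses per square (summed over `x0`),
agreement off the affected squares, value `0` at the time `0`; the number is
`(τA + τb) (muA pk3 A + mub pk3 b)`.
-/

namespace Vale.Agent.P141.H708

open Finset Matrix Vale.Agent.P141.PL Vale.Agent.P141.PL.H103 Vale.Agent.P141.H103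
open Vale.Agent.P141.H588G
open Vale.Agent.P075 (Ix val)
open Vale.Agent.P141.H922.NB (QU Wd Phi Vz sqv)
open Vale.Agent.P141.H352 (ms zn zk zk_nonneg CapR Pm pk3 ms_cells ms_sub ms_add ms_nonneg EW_zk
  MW_zk QU_QW PA_QW)

noncomputable section

open scoped Classical

variable {κ : Type*} [Fintype κ] [DecidableEq κ]

omit [DecidableEq κ] in
/-- one scale of the change numbers, summed over `x0` -/
theorem one_zk {N j t : ℕ} {X R S : ℤ} {mu : ℝ} {Q : ℕ → ℤ → ℤ → ℤ → Prop}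
    {f : ℤ → ℕ → ℤ → ℤ → κ → ℝ} (h : Pm N X R S mu Q f) (hmu : 0 ≤ mu) (htN : t < N)
    (htj : t + j ≤ N) :
    ∑ x0 ∈ iv N X, zk N R S t (t + j) (f x0 t) (f x0 (t + 1)) ≤
      4 * mu * √2 ^ j * ∑ i ∈ iv (N - t) X, ∑ n ∈ iv (N - t) R, ∑ m ∈ iv (N - t) S,
        if Q t i n m then (8 : ℝ) ^ t else 0 := by
  have e1 := fun F : ℤ → ℝ => sum_iv_iv t (N - t) X F
  simp only [show N - t + t = N by omega] at e1
  rw [← e1, Finset.mul_sum]
  refine sum_le_sum fun i hi => ?_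
  -- one cell of x0
  have cell : ∀ n ∈ iv (N - t) R, ∀ m ∈ iv (N - (t + j)) S,
      ∑ x0 ∈ iv t i, zn t (t + j) (f x0 t) (f x0 (t + 1)) n m ≤
        4 * mu * √2 ^ j * ∑ m' ∈ iv j m, if Q t i n m' then (8 : ℝ) ^ t else 0 := by
    intro n hn m hm
    set ν : ℝ := ∑ m' ∈ iv j m, if Q t i n m' then (1 : ℝ) else 0 with hν
    have ν0 : 0 ≤ ν := Finset.sum_nonneg fun _ _ => by split_ifs <;> norm_num
    have e8 : ∑ m' ∈ iv j m, (if Q t i n m' then (8 : ℝ) ^ t else 0) = 8 ^ t * ν := by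
      rw [hν, Finset.mul_sum]
      exact sum_congr rfl fun m' _ => by split_ifs <;> simp
    have νν : ν ≤ ν ^ 2 := by
      by_cases hq : ∀ m' ∈ iv j m, ¬ Q t i n m'
      · have : ν = 0 := sum_eq_zero fun m' hm' => if_neg (hq m' hm')
        rw [this]
        norm_num
      · push Not at hq
        obtain ⟨m₀, hm₀, hq₀⟩ := hq
        have h1 := Finset.single_le_sum (f := fun m' => if Q t i n m' then (1 : ℝ) else 0)
          (fun j _ => by split_ifs <;> norm_num) hm₀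
        rw [if_pos hq₀] at h1
        have h1' : 1 ≤ ν := h1
        nlinarith
    have hmem : ∀ m' ∈ iv j m, m' ∈ iv (N - t) S := by
      intro m' hm'
      have h := iv_sub hm hm'
      rwa [show N - (t + j) + j = N - t by omega] at h
    -- the difference
    have hD : ∑ x0 ∈ iv t i, ms t (t + j) (fun x y => f x0 (t + 1) x y - f x0 t x y) n m ≤
        4 * mu * 8 ^ t * ν := by
      simp only [ms_cells]
      rw [sum_comm, hν, Finset.mul_sum]
      refine sum_le_sum fun m' hm' => ?_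
      split_ifs with hq
      · refine (sum_le_sum fun x0 _ => ms_sub t _ _ n m').trans ?_
        rw [sum_add_distrib, ← Finset.mul_sum, ← Finset.mul_sum]
        have a1 := h.m0 t htN i hi n hn m' (hmem m' hm')
        have a2 := h.m1 t htN i hi n hn m' (hmem m' hm')
        linarith
      · rw [mul_zero]
        refine le_of_eq (sum_eq_zero fun x0 hx0 => ?_)
        unfold ms
        refine sum_eq_zero fun x hx => sum_eq_zero fun y hy => ?_
        rw [mem_iv] at hx hy hx0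
        beta_reduce
        rw [h.ag t htN x0 (pt_mem htN.le hi ((mem_iv).2 hx0)) x (pt_mem htN.le hn ((mem_iv).2 hx))
          y (pt_mem htN.le (hmem m' hm') ((mem_iv).2 hy)) (by rwa [hx0, hx, hy]), sub_self,
          dotProduct_zero]
    have hS : ∑ x0 ∈ iv t i, ms t (t + j) (fun x y => f x0 (t + 1) x y + f x0 t x y) n m ≤
        4 * mu * 8 ^ t * 2 ^ j := by
      simp only [ms_cells]
      rw [sum_comm]
      have h1 : ∀ m' ∈ iv j m, ∑ x0 ∈ iv t i,
          ms t t (fun x y => f x0 (t + 1) x y + f x0 t x y) n m' ≤ 4 * mu * 8 ^ t := by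
        intro m' hm'
        refine (sum_le_sum fun x0 _ => ms_add t _ _ n m').trans ?_
        rw [sum_add_distrib, ← Finset.mul_sum, ← Finset.mul_sum]
        have a1 := h.m0 t htN i hi n hn m' (hmem m' hm')
        have a2 := h.m1 t htN i hi n hn m' (hmem m' hm')
        linarith
      refine (sum_le_sum h1).trans (le_of_eq ?_)
      rw [sum_const, nsmul_eq_mul, card_iv']
      ring
    unfold zn
    refine (Real.sum_sqrt_mul_sqrt_le _ (fun x0 => ms_nonneg ..) fun x0 => ms_nonneg ..).trans ?_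
    rw [e8]
    have θ2 : √2 ^ j * √2 ^ j = (2 : ℝ) ^ j := by
      rw [← mul_pow, Real.mul_self_sqrt (by norm_num)]
    have h8 : (0 : ℝ) ≤ 8 ^ t := by positivity
    have hP : 0 ≤ 4 * mu * √2 ^ j * (8 ^ t * ν) := by positivity
    rw [← Real.sqrt_mul (Finset.sum_nonneg fun _ _ => ms_nonneg ..)]
    refine Real.sqrt_le_iff.2 ⟨hP, ?_⟩
    refine (mul_le_mul hD hS (Finset.sum_nonneg fun _ _ => ms_nonneg ..) (by positivity)).trans ?_
    rw [← θ2]
    have h5 := mul_le_mul_of_nonneg_left νν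
      (by positivity : 0 ≤ (4 * mu * 8 ^ t * √2 ^ j) * (4 * mu * 8 ^ t * √2 ^ j))
    refine le_trans (le_of_eq ?_) (h5.trans (le_of_eq ?_)) <;> ring
  -- all cells
  unfold zk
  have e3 : ∑ x0 ∈ iv t i, ∑ m ∈ iv (N - (t + j)) S, ∑ n ∈ iv (N - t) R,
      zn t (t + j) (f x0 t) (f x0 (t + 1)) n m = ∑ n ∈ iv (N - t) R, ∑ m ∈ iv (N - (t + j)) S,
      ∑ x0 ∈ iv t i, zn t (t + j) (f x0 t) (f x0 (t + 1)) n m := by
    rw [sum_comm]
    have e4 : ∀ m ∈ iv (N - (t + j)) S, ∑ x0 ∈ iv t i, ∑ n ∈ iv (N - t) R,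
        zn t (t + j) (f x0 t) (f x0 (t + 1)) n m = ∑ n ∈ iv (N - t) R, ∑ x0 ∈ iv t i,
        zn t (t + j) (f x0 t) (f x0 (t + 1)) n m := fun m _ => sum_comm
    rw [sum_congr rfl e4, sum_comm]
  rw [e3, Finset.mul_sum]
  refine sum_le_sum fun n hn => (sum_le_sum fun m hm => cell n hn m hm).trans (le_of_eq ?_)
  rw [← Finset.mul_sum, sum_iv_iv j (N - (t + j)) S fun m' => if Q t i n m' then (8 : ℝ) ^ t else 0,
    show N - (t + j) + j = N - t by omega]

omit [DecidableEq κ] in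
/-- **The change numbers at the distance `i + 1`, all scales.** -/
theorem sum_zk0 {N i : ℕ} {X R S : ℤ} {mu : ℝ} {Q : ℕ → ℤ → ℤ → ℤ → Prop}
    {f : ℤ → ℕ → ℤ → ℤ → κ → ℝ} (h : Pm N X R S mu Q f) (hmu : 0 ≤ mu) (hi : i < N) :
    ∑ x0 ∈ iv N X, ∑ t ∈ range (N - i), zk N R S t (t + (i + 1)) (f x0 t) (f x0 (t + 1)) ≤
      4 * mu * pk3 N X R S Q * √2 ^ (i + 1) := by
  rw [sum_comm]
  refine (sum_le_sum fun t ht => one_zk h hmu (t := t) (j := i + 1)
    (by rw [mem_range] at ht; omega) (by rw [mem_range] at ht; omega)).trans ?_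
  rw [← Finset.mul_sum]
  have h1 : ∑ t ∈ range (N - i), ∑ i ∈ iv (N - t) X, ∑ n ∈ iv (N - t) R, ∑ m ∈ iv (N - t) S,
      (if Q t i n m then (8 : ℝ) ^ t else 0) ≤ pk3 N X R S Q := by
    unfold pk3
    refine sum_le_sum_of_subset_of_nonneg (range_subset_range.2 (by omega)) fun t _ _ => ?_
    exact Finset.sum_nonneg fun _ _ => Finset.sum_nonneg fun _ _ => Finset.sum_nonneg fun _ _ => by
      split_ifs <;> positivity
  have h2 := mul_le_mul_of_nonneg_left h1 (show 0 ≤ 4 * mu * √2 ^ (i + 1) by positivity)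
  refine h2.trans (le_of_eq ?_)
  ring

theorem pk3_nonneg (N : ℕ) (X R S : ℤ) (Q : ℕ → ℤ → ℤ → ℤ → Prop) : 0 ≤ pk3 N X R S Q :=
  Finset.sum_nonneg fun _ _ => Finset.sum_nonneg fun _ _ => Finset.sum_nonneg fun _ _ =>
    Finset.sum_nonneg fun _ _ => by split_ifs <;> positivity

/-- the cap at the time `0` -/
theorem cap_zero {a l : ℕ} {τ : ℝ} (τ0 : 0 ≤ τ) (n m : ℤ) :
    (τ • (1 : Matrix (Ix l) (Ix l) ℝ) - QW a l (0 : ℤ → ℤ → κ → ℝ) (fun _ => 1) n m).PosSemidef := by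
  rw [QW_zero, sub_zero]
  exact PosSemidef.one.smul τ0

/-- **The neighbour differences of a pair of path families at one root.** -/
theorem nb_root {N D : ℕ} {X R S T : ℤ} {A : ℤ → ℕ → ℤ → ℤ → ℝ} {b : ℤ → ℕ → ℤ → ℤ → κ → ℝ}
    {τA τb muA mub : ℝ} {QA QB : ℕ → ℤ → ℤ → ℤ → Prop} (tA : 0 ≤ τA) (tb : 0 ≤ τb)
    (muA0 : 0 ≤ muA) (mub0 : 0 ≤ mub)
    (hA0 : ∀ x0 ∈ iv N X, A x0 0 = 0) (hb0 : ∀ x0 ∈ iv N X, b x0 0 = 0)
    {c : ℤ → ℕ → ℤ} (hc : ∀ x0 ∈ iv N X, H652.PlD D (c x0))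
    (cA : ∀ x0 ∈ iv N X, CapR N R S τA fun t => un (A x0 t))
    (cb : ∀ x0 ∈ iv N X, CapR N T S τb (b x0))
    (pA : Pm N X R S muA QA fun x0 t => un (A x0 t)) (pb : Pm N X T S mub QB b) :
    ∑ x0 ∈ iv N X, ∑ K ∈ Icc 1 N, ∑ m ∈ Wd N K S, Phi N R T K (c x0 K) m
        (fun z x => sqv (H352.nd (Vz N S (A x0 K) (b x0 K) z x) K m))
      ≤ 1868 * (12736 * D + 16080) * (τA + τb) *
        (muA * pk3 N X R S QA + mub * pk3 N X T S QB) := by
  have h := nb_paths (X := iv N X) (N := N) (D := D) (R := R) (S := S) (T := T) (A := A) (b := b)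
    (τA := τA) (τb := τb) (MA := 4 * muA * pk3 N X R S QA) (MB := 4 * mub * pk3 N X T S QB)
    (zA := fun x0 t l => zk N R S t l (un (A x0 t)) (un (A x0 (t + 1))))
    (zB := fun x0 t l => zk N T S t l (b x0 t) (b x0 (t + 1)))
    tA tb (fun x0 t l => zk_nonneg ..) (fun x0 t l => zk_nonneg ..) hA0 hb0 hc
    (fun x0 hx t l a h1 h2 h3 h4 => by
      rw [PA_QW, PA_QW]
      exact EW_zk (by omega) h4 tA fun m hm n hn =>
        cA x0 hx (t + 1) a l (by omega) h3 h1 h4 h2 m hm n hn)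
    (fun x0 hx t l a h1 h2 h3 h4 => by
      rw [QU_QW, QU_QW]
      exact EW_zk (by omega) h4 tb fun m hm n hn =>
        cb x0 hx (t + 1) a l (by omega) h3 h1 h4 h2 m hm n hn)
    (fun x0 hx t l c' h1 h2 => by
      rw [PA_QW, PA_QW, QU_QW, QU_QW]
      refine MW_zk (by omega) h2 tA tb (fun m hm n hn => ?_) (fun m hm n hn => ?_) _
      · rcases Nat.eq_zero_or_pos t with rfl | ht
        · rw [hA0 x0 hx, un_zero]
          exact cap_zero tA n m
        · exact cA x0 hx t l l ht (by omega) (by omega) h2 h2 m hm n hn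
      · exact cb x0 hx (t + 1) l l (by omega) h1 h1 h2 h2 m hm n hn)
    (fun i hi => sum_zk0 pA muA0 hi) (fun i hi => sum_zk0 pb mub0 hi)
    (by
      have := pk3_nonneg N X R S QA
      have := pk3_nonneg N X T S QB
      positivity)
  refine h.trans (le_of_eq ?_)
  ring

end

end Vale.Agent.P141.H708
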