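import Vale.Agent.P141.H708.PNum

/-!
# P141, line (A), near term: the neighbour differences of a pair of paths

* `own_timeA`, `own_timeB` : own energies at the time `k`, scale `k`, from the change numbers;
* `nb_path` : the neighbour differences of the pair at one `x0`, only change numbers;
* `nb_paths` : the sum over the points `x0`.
-/

namespace Vale.Agent.P141.H708

open Finset Matrix Vale.Agent.P141.PL Vale.Agent.P141.PL.H103 Vale.Agent.P141.H103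
open Vale.Agent.P141.H588G
open Vale.Agent.P075 (Ix val)
open Vale.Agent.P141.H205 (CapS capS_out)
open Vale.Agent.P141.H922.NB (QU Chg XX Wd Phi Vz sqv nb_closed QU_symm QU_own QU_out PA_outA
  PA_own_le QU_own_le)

noncomputable section

open scoped Classical

variable {κ : Type*} [Fintype κ] [DecidableEq κ]

omit [DecidableEq κ] in
theorem QW_zero (a k : ℕ) (M : ℤ → Matrix κ κ ℝ) (n m : ℤ) : QW a k 0 M n m = 0 := by
  ext j j'
  simp [QW]

omit [Fintype κ] [DecidableEq κ] in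
theorem EW_zeroM (N : ℕ) (R S : ℤ) (k a : ℕ) :
    EW N R S k (fun _ _ _ => (0 : Matrix (Ix k) (Ix k) ℝ)) a = 0 := by
  unfold EW
  simp

theorem un_zero : un (0 : ℤ → ℤ → ℝ) = 0 := rfl

/-- **Own energies at the time `k`, scale `k`.** -/
theorem own_timeA {N : ℕ} {R S : ℤ} {A : ℕ → ℤ → ℤ → ℝ} {τ : ℝ} {z : ℕ → ℕ → ℝ} (hA0 : A 0 = 0)
    (h : ∀ t l a, t + 1 ≤ l → l ≤ N → t + 1 ≤ a → a ≤ N →
      EW N R S l (PA (A (t + 1)) l) a ≤ EW N R S l (PA (A t) l) a + 2 * τ * z t l) :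
    ∀ k, k ≤ N → EW N R S k (PA (A k) k) k ≤ 2 * τ * ∑ t ∈ range k, z t (t + 1) := by
  intro k
  induction k with
  | zero =>
    intro _
    rw [hA0, PA_eqU, un_zero]
    simp only [QW_zero]
    rw [EW_zeroM, sum_range_zero, mul_zero]
  | succ k ih =>
    intro hk
    have h1 := h k (k + 1) (k + 1) le_rfl hk le_rfl hk
    have h2 := PA_own (N := N) (k := k) (by omega) R S (A k) (k + 1)
    have h3 := H652.EW_antiR' (K := k) (R := R) (S := S) (PA_outA N k k (A k)) (PA_symm _ k)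
      (a := k + 1) (by omega) hk (k := k)
    have h4 := ih (by omega)
    rw [sum_range_succ, mul_add]
    linarith

/-- **Own energies at the time `k`, scale `k`.** -/
theorem own_timeB {N : ℕ} {R S : ℤ} {b : ℕ → ℤ → ℤ → κ → ℝ} {τ : ℝ} {z : ℕ → ℕ → ℝ}
    (hb0 : b 0 = 0)
    (h : ∀ t l a, t + 1 ≤ l → l ≤ N → t + 1 ≤ a → a ≤ N →
      EW N R S l (QU (b (t + 1)) l) a ≤ EW N R S l (QU (b t) l) a + 2 * τ * z t l) :
    ∀ k, k ≤ N → EW N R S k (QU (b k) k) k ≤ 2 * τ * ∑ t ∈ range k, z t (t + 1) := by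
  intro k
  induction k with
  | zero =>
    intro _
    rw [hb0, QU_eq]
    simp only [QW_zero]
    rw [EW_zeroM, sum_range_zero, mul_zero]
  | succ k ih =>
    intro hk
    have h1 := h k (k + 1) (k + 1) le_rfl hk le_rfl hk
    have h2 := QU_own (N := N) (k := k) (by omega) R S (b k) (k + 1)
    have h3 := H652.EW_antiR' (K := k) (R := R) (S := S) (QU_out N k k (b k)) (QU_symm _ k)
      (a := k + 1) (by omega) hk (k := k)
    have h4 := ih (by omega)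
    rw [sum_range_succ, mul_add]
    linarith

/-- **The neighbour differences of a pair of paths**, change numbers `zA`, `zB` only. -/
theorem nb_path {N D : ℕ} {R S T : ℤ} {A : ℕ → ℤ → ℤ → ℝ} {b : ℕ → ℤ → ℤ → κ → ℝ} {τA τb : ℝ}
    {zA zB : ℕ → ℕ → ℝ} (tA : 0 ≤ τA) (tb : 0 ≤ τb) (zA0 : ∀ t l, 0 ≤ zA t l)
    (zB0 : ∀ t l, 0 ≤ zB t l) (hA0 : A 0 = 0) (hb0 : b 0 = 0) {c : ℕ → ℤ} (hc : H652.PlD D c)
    (hEA : ∀ t l a, t + 1 ≤ l → l ≤ N → t + 1 ≤ a → a ≤ N →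
      EW N R S l (PA (A (t + 1)) l) a ≤ EW N R S l (PA (A t) l) a + 2 * τA * zA t l)
    (hEB : ∀ t l a, t + 1 ≤ l → l ≤ N → t + 1 ≤ a → a ≤ N →
      EW N T S l (QU (b (t + 1)) l) a ≤ EW N T S l (QU (b t) l) a + 2 * τb * zB t l)
    (hMW : ∀ t l c', t + 1 ≤ l → l ≤ N →
      MW N R S T l c' (PA (A (t + 1)) l l) (QU (b (t + 1)) l l)
        ≤ MW N R S T l c' (PA (A t) l l) (QU (b t) l l) + (τb * zA t l + τA * zB t l)) :
    ∑ K ∈ Icc 1 N, ∑ m ∈ Wd N K S, Phi N R T K (c K) m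
        (fun z x => sqv (H352.nd (Vz N S (A K) (b K) z x) K m))
      ≤ (12736 * D + 16080) * (τA + τb) * ∑ i ∈ range N, (2 / 3 : ℝ) ^ i * (i + 2) *
          ∑ t ∈ range (N - i), (zA t (t + (i + 1)) + zB t (t + (i + 1))) := by
  rcases Nat.eq_zero_or_pos N with rfl | hN
  · simp
  set Y : ℕ → ℝ := fun i => ∑ t ∈ range (N - i), (zA t (t + (i + 1)) + zB t (t + (i + 1))) with hY
  have Y0 : ∀ i, 0 ≤ Y i := fun i => Finset.sum_nonneg fun t _ => add_nonneg (zA0 _ _) (zB0 _ _)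
  set E0 : ℝ := 2 * τA * ∑ t ∈ range N, zA t (t + 1) + 2 * τb * ∑ t ∈ range N, zB t (t + 1)
    with hE0
  have sA0 : 0 ≤ ∑ t ∈ range N, zA t (t + 1) := Finset.sum_nonneg fun t _ => zA0 _ _
  have sB0 : 0 ≤ ∑ t ∈ range N, zB t (t + 1) := Finset.sum_nonneg fun t _ => zB0 _ _
  have bA : ∀ k, k ≤ N → EW N R S k (PA (A k) k) k ≤ 2 * τA * ∑ t ∈ range N, zA t (t + 1) := by
    intro k hk
    refine (own_timeA hA0 hEA k hk).trans (mul_le_mul_of_nonneg_left ?_ (by positivity))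
    exact sum_le_sum_of_subset_of_nonneg (range_subset_range.2 hk) fun t _ _ => zA0 _ _
  have bB : ∀ k, k ≤ N → EW N T S k (QU (b k) k) k ≤ 2 * τb * ∑ t ∈ range N, zB t (t + 1) := by
    intro k hk
    refine (own_timeB hb0 hEB k hk).trans (mul_le_mul_of_nonneg_left ?_ (by positivity))
    exact sum_le_sum_of_subset_of_nonneg (range_subset_range.2 hk) fun t _ _ => zB0 _ _
  have h := nb_zk (N := N) (D := D) (R := R) (S := S) (T := T) (A := A) (b := b) (E0 := E0)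
    tA tb zA0 zB0 hc (fun t l a _ h2 h3 h4 h5 => hEA t l a h2 h3.le h4 h5)
    (fun t l a _ h2 h3 h4 h5 => hEB t l a h2 h3.le h4 h5)
    (fun t l c' _ h2 h3 => hMW t l c' h2 h3.le)
    (add_le_add (bA 1 hN) (bB 1 hN))
    (fun k _ hk => add_le_add ((PA_own_le R S (A k) k hk le_rfl).trans (bA k hk))
      ((QU_own_le T S (b k) k hk le_rfl).trans (bB k hk)))
  refine h.trans ?_
  have hD : (0 : ℝ) ≤ D := Nat.cast_nonneg D
  have e1 : E0 ≤ (τA + τb) * (2 * Y 0) := by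
    have : Y 0 = ∑ t ∈ range N, zA t (t + 1) + ∑ t ∈ range N, zB t (t + 1) := by
      rw [hY]
      simp only [Nat.sub_zero, Nat.zero_add, sum_add_distrib]
    rw [this, hE0]
    have p1 := mul_nonneg tA sB0
    have p2 := mul_nonneg tb sA0
    nlinarith
  have e2 : 2 * Y 0 ≤ ∑ i ∈ range N, (2 / 3 : ℝ) ^ i * (i + 2) * Y i := by
    have := Finset.single_le_sum (f := fun i : ℕ => (2 / 3 : ℝ) ^ i * (i + 2) * Y i)
      (s := range N) (fun i _ => by have := Y0 i; positivity) (mem_range.2 hN)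
    refine (le_of_eq ?_).trans this
    simp
  have e3 : ∑ i ∈ range (N - 1), (2 / 3 : ℝ) ^ i * (i + 2) *
          ∑ t ∈ Ico 1 (N - (i + 1)), (zA t (t + (i + 1)) + zB t (t + (i + 1)))
      ≤ ∑ i ∈ range N, (2 / 3 : ℝ) ^ i * (i + 2) * Y i := by
    refine (sum_le_sum (f := fun i : ℕ => (2 / 3 : ℝ) ^ i * (i + 2) *
          ∑ t ∈ Ico 1 (N - (i + 1)), (zA t (t + (i + 1)) + zB t (t + (i + 1))))
      (g := fun i => (2 / 3 : ℝ) ^ i * (i + 2) * Y i) fun i _ => ?_).trans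
      (sum_le_sum_of_subset_of_nonneg (range_subset_range.2 (by omega)) fun i _ _ => by
        have := Y0 i
        positivity)
    refine mul_le_mul_of_nonneg_left ?_ (by positivity)
    exact sum_le_sum_of_subset_of_nonneg (fun t ht => by
      rw [mem_Ico] at ht
      rw [mem_range]
      omega) fun t _ _ => add_nonneg (zA0 _ _) (zB0 _ _)
  have hτ : 0 ≤ τA + τb := add_nonneg tA tb
  have f1 := mul_le_mul_of_nonneg_left (e1.trans (mul_le_mul_of_nonneg_left e2 hτ))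
    (show (0 : ℝ) ≤ 11008 * D + 13920 by positivity)
  have f2 := mul_le_mul_of_nonneg_left e3 (show (0 : ℝ) ≤ 432 * (4 * D + 5) * (τA + τb) by positivity)
  refine (add_le_add f1 f2).trans (le_of_eq ?_)
  ring

/-- **The sum over the points `x0`**: change numbers at distance `j` at most `M √2 ^ j`. -/
theorem nb_paths {X : Finset ℤ} {N D : ℕ} {R S T : ℤ} {A : ℤ → ℕ → ℤ → ℤ → ℝ}
    {b : ℤ → ℕ → ℤ → ℤ → κ → ℝ} {τA τb MA MB : ℝ}
    {zA zB : ℤ → ℕ → ℕ → ℝ} (tA : 0 ≤ τA) (tb : 0 ≤ τb) (zA0 : ∀ x0 t l, 0 ≤ zA x0 t l)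
    (zB0 : ∀ x0 t l, 0 ≤ zB x0 t l) (hA0 : ∀ x0 ∈ X, A x0 0 = 0) (hb0 : ∀ x0 ∈ X, b x0 0 = 0)
    {c : ℤ → ℕ → ℤ} (hc : ∀ x0 ∈ X, H652.PlD D (c x0))
    (hEA : ∀ x0 ∈ X, ∀ t l a, t + 1 ≤ l → l ≤ N → t + 1 ≤ a → a ≤ N →
      EW N R S l (PA (A x0 (t + 1)) l) a ≤ EW N R S l (PA (A x0 t) l) a + 2 * τA * zA x0 t l)
    (hEB : ∀ x0 ∈ X, ∀ t l a, t + 1 ≤ l → l ≤ N → t + 1 ≤ a → a ≤ N →
      EW N T S l (QU (b x0 (t + 1)) l) a ≤ EW N T S l (QU (b x0 t) l) a + 2 * τb * zB x0 t l)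
    (hMW : ∀ x0 ∈ X, ∀ t l c', t + 1 ≤ l → l ≤ N →
      MW N R S T l c' (PA (A x0 (t + 1)) l l) (QU (b x0 (t + 1)) l l)
        ≤ MW N R S T l c' (PA (A x0 t) l l) (QU (b x0 t) l l)
          + (τb * zA x0 t l + τA * zB x0 t l))
    (sA : ∀ i < N, ∑ x0 ∈ X, ∑ t ∈ range (N - i), zA x0 t (t + (i + 1)) ≤ MA * (√2) ^ (i + 1))
    (sB : ∀ i < N, ∑ x0 ∈ X, ∑ t ∈ range (N - i), zB x0 t (t + (i + 1)) ≤ MB * (√2) ^ (i + 1))
    (hM : 0 ≤ MA + MB) :
    ∑ x0 ∈ X, ∑ K ∈ Icc 1 N, ∑ m ∈ Wd N K S, Phi N R T K (c x0 K) m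
        (fun z x => sqv (H352.nd (Vz N S (A x0 K) (b x0 K) z x) K m))
      ≤ 467 * (12736 * D + 16080) * (τA + τb) * (MA + MB) := by
  have hs2 : √2 ≤ 14142136 / 10000000 := by
    rw [Real.sqrt_le_left (by norm_num)]
    norm_num
  have hs0 : (0 : ℝ) ≤ √2 := Real.sqrt_nonneg 2
  have hτ : 0 ≤ τA + τb := add_nonneg tA tb
  refine (sum_le_sum fun x0 hx => nb_path tA tb (zA0 x0) (zB0 x0) (hA0 x0 hx) (hb0 x0 hx)
    (hc x0 hx) (hEA x0 hx) (hEB x0 hx) (hMW x0 hx)).trans ?_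
  rw [← Finset.mul_sum, sum_comm]
  have key : ∀ i ∈ range N, ∑ x0 ∈ X, (2 / 3 : ℝ) ^ i * (i + 2) *
      ∑ t ∈ range (N - i), (zA x0 t (t + (i + 1)) + zB x0 t (t + (i + 1))) ≤
      14142136 / 10000000 * (MA + MB) * ((943 / 1000) ^ i * (i + 2)) := by
    intro i hi
    have hi' := mem_range.1 hi
    rw [← Finset.mul_sum]
    have h1 : ∑ x0 ∈ X, ∑ t ∈ range (N - i), (zA x0 t (t + (i + 1)) + zB x0 t (t + (i + 1)))
        ≤ (MA + MB) * (√2) ^ (i + 1) := by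
      simp only [sum_add_distrib]
      have := sA i hi'
      have := sB i hi'
      linarith
    have h2 := mul_le_mul_of_nonneg_left h1 (show (0 : ℝ) ≤ (2 / 3) ^ i * (i + 2) by positivity)
    refine h2.trans ?_
    have h6 : (2 / 3 : ℝ) ^ i * (√2) ^ (i + 1) ≤ 14142136 / 10000000 * (943 / 1000) ^ i := by
      rw [pow_succ, ← mul_assoc, ← mul_pow, mul_comm]
      refine mul_le_mul hs2 (pow_le_pow_left₀ (by positivity) ?_ i) (by positivity) (by norm_num)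
      linarith
    have h7 := mul_le_mul_of_nonneg_right h6 (show 0 ≤ ((i : ℝ) + 2) * (MA + MB) by positivity)
    refine (le_of_eq ?_).trans (h7.trans (le_of_eq ?_))
    · ring
    · ring
  have hD : (0 : ℝ) ≤ D := Nat.cast_nonneg D
  refine (mul_le_mul_of_nonneg_left (sum_le_sum key) (by positivity)).trans ?_
  rw [← Finset.mul_sum]
  have h8 := mul_le_mul_of_nonneg_left (geo943 N)
    (show 0 ≤ 14142136 / 10000000 * (MA + MB) by positivity)
  have h9 := mul_le_mul_of_nonneg_left h8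
    (show (0 : ℝ) ≤ (12736 * D + 16080) * (τA + τb) by positivity)
  refine h9.trans ?_
  have h10 : 0 ≤ (12736 * (D : ℝ) + 16080) * (τA + τb) * (MA + MB) := by positivity
  nlinarith

end

end Vale.Agent.P141.H708
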